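import Vale.Agent.P219.H817.R7

/-! # Change of variables by an isometry of a ball of the space form -/

open MeasureTheory Set Matrix
open scoped ENNReal ContDiff

noncomputable section

namespace Vale.Agent.P219.Co

variable {n : ℕ}

/-- The Jacobian matrix of `φ`. -/
def jacM (φ : E n → E n) (y : E n) : Matrix (Fin n) (Fin n) ℝ :=
  Matrix.of fun i j => pd j (fun z => φ z i) y

/-- The matrix `y yᵀ`. -/
def yyT (y : E n) : Matrix (Fin n) (Fin n) ℝ := Matrix.of fun i j => y i * y j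

theorem yyT_sq (y : E n) : yyT y * yyT y = (∑ m, y m ^ 2) • yyT y := by
  ext i j
  simp only [Matrix.mul_apply, yyT, Matrix.of_apply, Matrix.smul_apply, smul_eq_mul,
    Finset.sum_mul]
  exact Finset.sum_congr rfl fun k _ => by ring

theorem det_one_add_yyT (a : ℝ) (y : E n) :
    (1 + a • yyT y).det = 1 + a * ∑ m, y m ^ 2 := by
  have h : a • yyT y = Matrix.replicateCol Unit (fun i => a * y i) *
      Matrix.replicateRow Unit (fun i => y i) := by
    ext i j
    simp [Matrix.mul_apply, yyT, mul_assoc]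
  rw [h, Matrix.det_one_add_replicateCol_mul_replicateRow]
  simp only [dotProduct, Finset.mul_sum]
  congr 1
  exact Finset.sum_congr rfl fun k _ => by ring

theorem yyT_inv {K : ℝ} (y : E n) (h : 1 - K * ∑ m, y m ^ 2 ≠ 0) :
    (1 + (K / (1 - K * ∑ m, y m ^ 2)) • yyT y) * (1 - K • yyT y) = 1 := by
  have h1 : (1 + (K / (1 - K * ∑ m, y m ^ 2)) • yyT y) * (1 - K • yyT y) =
      1 + (K / (1 - K * ∑ m, y m ^ 2) - K - K / (1 - K * ∑ m, y m ^ 2) * K * ∑ m, y m ^ 2) •
        yyT y := by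
    rw [add_mul, mul_sub, mul_sub, one_mul, one_mul, mul_one, smul_mul_assoc, mul_smul_comm, yyT_sq]
    module
  rw [h1]
  have h2 : K / (1 - K * ∑ m, y m ^ 2) - K - K / (1 - K * ∑ m, y m ^ 2) * K * ∑ m, y m ^ 2 = 0 := by
    field_simp
    ring
  rw [h2, zero_smul, add_zero]

theorem pd_coord {φ : E n → E n} {y : E n} (h : DifferentiableAt ℝ φ y) (i j : Fin n) :
    pd j (fun z => φ z i) y = (fderiv ℝ φ y (EuclideanSpace.single j 1)) i := by
  have h1 : HasFDerivAt (fun z => φ z i)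
      ((EuclideanSpace.proj i : EuclideanSpace ℝ (Fin n) →L[ℝ] ℝ).comp (fderiv ℝ φ y)) y :=
    (EuclideanSpace.proj i : EuclideanSpace ℝ (Fin n) →L[ℝ] ℝ).hasFDerivAt.comp y h.hasFDerivAt
  unfold pd
  rw [h1.differentiableAt.lineDeriv_eq_fderiv, h1.fderiv]
  rfl

theorem det_fderiv {φ : E n → E n} {y : E n} (h : DifferentiableAt ℝ φ y) :
    (fderiv ℝ φ y).det = (jacM φ y).det := by
  unfold ContinuousLinearMap.det
  rw [← LinearMap.det_toMatrix (EuclideanSpace.basisFun (Fin n) ℝ).toBasis]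
  congr 1
  ext i j
  rw [LinearMap.toMatrix_apply]
  simp [jacM, pd_coord h]

theorem pd_comp {φ : E n → E n} {f : E n → ℝ} {y : E n} (h : DifferentiableAt ℝ φ y)
    (hf : DifferentiableAt ℝ f (φ y)) (i : Fin n) :
    pd i (fun z => f (φ z)) y = ∑ k, jacM φ y k i * pd k f (φ y) := by
  have h1 : HasFDerivAt (fun z => f (φ z)) ((fderiv ℝ f (φ y)).comp (fderiv ℝ φ y)) y :=
    hf.hasFDerivAt.comp y h.hasFDerivAt
  have h2 : pd i (fun z => f (φ z)) y =
      fderiv ℝ f (φ y) (fderiv ℝ φ y (EuclideanSpace.single i 1)) := by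
    unfold pd
    rw [h1.differentiableAt.lineDeriv_eq_fderiv, h1.fderiv]
    rfl
  rw [h2]
  have h3 : fderiv ℝ φ y (EuclideanSpace.single i 1) =
      ∑ k, (fderiv ℝ φ y (EuclideanSpace.single i 1)) k • EuclideanSpace.single k (1 : ℝ) := by
    have := (EuclideanSpace.basisFun (Fin n) ℝ).sum_repr
      (fderiv ℝ φ y (EuclideanSpace.single i 1))
    simpa using this.symm
  rw [h3, map_sum]
  refine Finset.sum_congr rfl fun k _ => ?_
  rw [map_smul, smul_eq_mul]
  congr 1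
  · simp [jacM, pd_coord h]
  · unfold pd
    rw [hf.lineDeriv_eq_fderiv]

namespace IsoData

variable {M : RiemMetric n} {K : ℝ} {Ω : Set (E n)} {r : ℝ} {φ : E n → E n}

theorem isOpen_ball (c : ℝ) : IsOpen {y : E n | ∑ i, y i ^ 2 < c} :=
  isOpen_lt (by fun_prop) continuous_const

theorem differentiableAt (h : IsoData M K Ω r φ) {y : E n}
    (hy : ∑ i, y i ^ 2 < sn √(-K) r ^ 2) : DifferentiableAt ℝ φ y := by
  have h1 : ContDiffOn ℝ ∞ φ {y | ∑ i, y i ^ 2 < sn √(-K) r ^ 2} :=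
    contDiffOn_euclidean.2 h.smooth
  exact (h1.contDiffAt ((isOpen_ball _).mem_nhds hy)).differentiableAt (by simp)

theorem metricM (h : IsoData M K Ω r φ) {y : E n} (hy : ∑ i, y i ^ 2 < sn √(-K) r ^ 2) :
    (jacM φ y)ᵀ * M.g (φ y) * jacM φ y = 1 + (K / (1 - K * ∑ m, y m ^ 2)) • yyT y := by
  ext i j
  have h1 := h.metric y hy i j
  have e : ((jacM φ y)ᵀ * M.g (φ y) * jacM φ y) i j = ∑ k, ∑ l, M.g (φ y) k l *
      pd i (fun z => φ z k) y * pd j (fun z => φ z l) y := by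
    simp only [Matrix.mul_apply, Matrix.transpose_apply, jacM, Matrix.of_apply, Finset.sum_mul]
    rw [Finset.sum_comm]
    exact Finset.sum_congr rfl fun k _ => Finset.sum_congr rfl fun l _ => by ring
  rw [e, h1]
  simp only [Matrix.add_apply, Matrix.one_apply, Matrix.smul_apply, yyT, Matrix.of_apply,
    smul_eq_mul]
  ring

theorem pos {K : ℝ} (hK : K ≤ 0) (y : E n) : 0 < 1 - K * ∑ m, y m ^ 2 := by
  have h : 0 ≤ ∑ m, y m ^ 2 := Finset.sum_nonneg fun m _ => sq_nonneg _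
  nlinarith

theorem det_eq (hK : K ≤ 0) (h : IsoData M K Ω r φ) {y : E n}
    (hy : ∑ i, y i ^ 2 < sn √(-K) r ^ 2) :
    |(jacM φ y).det| * volDensity M (φ y) = 1 / √(1 - K * ∑ m, y m ^ 2) := by
  have hp := pos hK y
  have h1 := congrArg Matrix.det (h.metricM hy)
  rw [Matrix.det_mul, Matrix.det_mul, Matrix.det_transpose, det_one_add_yyT] at h1
  have h2 : (jacM φ y).det ^ 2 * (M.g (φ y)).det = 1 / (1 - K * ∑ m, y m ^ 2) := by
    have h3 : 1 + K / (1 - K * ∑ m, y m ^ 2) * ∑ m, y m ^ 2 = 1 / (1 - K * ∑ m, y m ^ 2) := by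
      field_simp
      ring
    rw [← h3, ← h1]
    ring
  have h4 := congrArg Real.sqrt h2
  rw [Real.sqrt_mul (sq_nonneg _), Real.sqrt_sq_eq_abs, Real.sqrt_div zero_le_one,
    Real.sqrt_one] at h4
  exact h4

/-- Change of variables: the Riemannian volume in the model coordinates. -/
theorem lintegral (hK : K ≤ 0) (h : IsoData M K Ω r φ) (F : E n → ℝ≥0∞) :
    ∫⁻ x in Ω, F x * ENNReal.ofReal (volDensity M x) ∂leb n =
      ∫⁻ y in {y | ∑ i, y i ^ 2 < sn √(-K) r ^ 2},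
        F (φ y) * ENNReal.ofReal (1 / √(1 - K * ∑ m, y m ^ 2)) ∂leb n := by
  have hm : MeasurableSet {y : E n | ∑ i, y i ^ 2 < sn √(-K) r ^ 2} := (isOpen_ball _).measurableSet
  rw [← h.image]
  unfold leb
  rw [lintegral_image_eq_lintegral_abs_det_fderiv_mul volume hm
    (fun y hy => (h.differentiableAt hy).hasFDerivAt.hasFDerivWithinAt) h.inj]
  refine setLIntegral_congr_fun hm fun y hy => ?_
  simp only
  rw [det_fderiv (h.differentiableAt hy), ← h.det_eq hK hy, ENNReal.ofReal_mul (abs_nonneg _)]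
  ring

/-- The norm of the gradient in the model coordinates. -/
theorem gradNorm (hK : K ≤ 0) (h : IsoData M K Ω r φ) {y : E n}
    (hy : ∑ i, y i ^ 2 < sn √(-K) r ^ 2) {f : E n → ℝ} (hf : DifferentiableAt ℝ f (φ y))
    {q : Fin n → ℝ} (hq : ∀ i, pd i (fun z => f (φ z)) y = q i) :
    gradNorm M f (φ y) = √(∑ i, q i ^ 2 - K * (∑ i, y i * q i) ^ 2) := by
  have hp := pos hK y
  have h0 := h.metricM hy
  set J := jacM φ y with hJ
  set G := M.g (φ y) with hG
  have h1 : J * (1 - K • yyT y) * Jᵀ * G = 1 := by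
    have h2 : (Jᵀ * G) * (J * (1 - K • yyT y)) = 1 := by
      rw [← mul_assoc, h0]
      exact yyT_inv y hp.ne'
    have h3 := mul_eq_one_comm.1 h2
    rwa [← mul_assoc] at h3
  have hinv : G⁻¹ = J * (1 - K • yyT y) * Jᵀ := Matrix.inv_eq_left_inv h1
  have hqJ : q = Jᵀ *ᵥ fun i => pd i f (φ y) := by
    funext i
    rw [← hq i, pd_comp (h.differentiableAt hy) hf]
    simp [Matrix.mulVec, dotProduct, hJ]
  unfold Co.gradNorm
  congr 1
  rw [← hG, hinv, ← Matrix.mulVec_mulVec, ← Matrix.mulVec_mulVec, ← hqJ, Matrix.dotProduct_mulVec,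
    ← Matrix.mulVec_transpose, ← hqJ]
  rw [Matrix.sub_mulVec, Matrix.one_mulVec, dotProduct_sub, Matrix.smul_mulVec, dotProduct_smul]
  have e1 : q ⬝ᵥ q = ∑ i, q i ^ 2 := by
    simp only [dotProduct]
    exact Finset.sum_congr rfl fun i _ => by ring
  have e2 : q ⬝ᵥ yyT y *ᵥ q = (∑ i, y i * q i) ^ 2 := by
    simp only [dotProduct, Matrix.mulVec, yyT, Matrix.of_apply]
    rw [sq, Finset.sum_mul]
    refine Finset.sum_congr rfl fun i _ => ?_
    rw [Finset.mul_sum, Finset.mul_sum]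
    exact Finset.sum_congr rfl fun j _ => by ring
  rw [e1, e2, smul_eq_mul]

end IsoData

end Vale.Agent.P219.Co
end
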