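import Vale.Agent.P219.Bdl.B2
import Vale.Agent.P219.CoDefs

open MeasureTheory Set Filter Topology
open scoped ENNReal NNReal ContDiff

noncomputable section

namespace Vale.Agent.P219.Co

namespace BD

/-- The complement of a closed ball about `0` is connected, in dimension at least `2`. -/
theorem isPreconnected_ext {n : ℕ} (hn : 2 ≤ n) {r : ℝ} (hr : 0 < r) :
    IsPreconnected {v : E n | r < ‖v‖} := by
  have hrk : 1 < Module.rank ℝ (E n) := by
    rw [← Module.finrank_eq_rank, finrank_euclideanSpace_fin]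
    exact_mod_cast (by omega : 1 < n)
  have h1 : IsPreconnected (Metric.sphere (0 : E n) 1) := isPreconnected_sphere hrk _ _
  have h2 : IsPreconnected (Metric.sphere (0 : E n) 1 ×ˢ Ioi r) := h1.prod isPreconnected_Ioi
  have h3 : {v : E n | r < ‖v‖} =
      (fun p : E n × ℝ => p.2 • p.1) '' (Metric.sphere (0 : E n) 1 ×ˢ Ioi r) := by
    ext v
    constructor
    · intro hv
      have hv' : r < ‖v‖ := hv
      have hv0 : ‖v‖ ≠ 0 := (hr.trans hv').ne'
      refine ⟨(‖v‖⁻¹ • v, ‖v‖), ⟨?_, hv'⟩, ?_⟩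
      · rw [mem_sphere_zero_iff_norm, norm_smul, norm_inv, norm_norm, inv_mul_cancel₀ hv0]
      · change ‖v‖ • (‖v‖⁻¹ • v) = v
        rw [smul_smul, mul_inv_cancel₀ hv0, one_smul]
    · rintro ⟨⟨u, t⟩, ⟨hu, ht⟩, rfl⟩
      have hu' : ‖u‖ = 1 := mem_sphere_zero_iff_norm.1 hu
      have ht' : r < t := ht
      change r < ‖t • u‖
      rw [norm_smul, hu', mul_one, Real.norm_of_nonneg (hr.trans ht').le]
      exact ht'
  rw [h3]
  exact h2.image _ (by fun_prop)

theorem eq_image {n : ℕ} (G : TP.Geo n) (c : E n) (S : Set (E n)) :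
    {x : E n | G.lg c x ∈ S} = G.ex c '' S := by
  ext x
  constructor
  · intro hx
    exact ⟨G.lg c x, hx, G.ex_lg c x⟩
  · rintro ⟨v, hv, rfl⟩
    change G.lg c (G.ex c v) ∈ S
    rw [G.lg_ex]
    exact hv

theorem ex_contDiff {n : ℕ} (G : TP.Geo n) (c : E n) : ContDiff ℝ ∞ (G.ex c) :=
  G.ex_smooth.comp (contDiff_const.prodMk contDiff_id)

theorem lg_contDiff {n : ℕ} (G : TP.Geo n) (c : E n) : ContDiff ℝ ∞ (G.lg c) :=
  G.lg_smooth.comp (contDiff_const.prodMk contDiff_id)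

/-- A function all of whose partial derivatives vanish has derivative zero. -/
theorem fderiv_eq_zero {n : ℕ} {f : E n → ℝ} {x : E n} (hf : DifferentiableAt ℝ f x)
    (h : ∀ i, pd i f x = 0) : fderiv ℝ f x = 0 := by
  have h1 : ∀ i, fderiv ℝ f x (EuclideanSpace.single i 1) = 0 := fun i => by
    rw [← hf.lineDeriv_eq_fderiv]
    exact h i
  ext v
  have hv : v = ∑ i, v i • EuclideanSpace.single i (1 : ℝ) := by
    ext j
    simp [Finset.sum_apply, Pi.single_apply]
  rw [hv, map_sum]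
  simp [h1]

end BD

/-- Geodesic balls and their exteriors are open and connected, geodesic spheres are null sets. -/
theorem ball_conn {n : ℕ} (hn : 2 ≤ n) (G : TP.Geo n) (c : E n) {r : ℝ} (hr : 0 < r) :
    IsOpen {x : E n | ‖G.lg c x‖ < r} ∧ IsPreconnected {x : E n | ‖G.lg c x‖ < r} ∧
    IsOpen {x : E n | r < ‖G.lg c x‖} ∧ IsPreconnected {x : E n | r < ‖G.lg c x‖} ∧
    MeasureTheory.volume {x : E n | ‖G.lg c x‖ = r} = 0 := by
  have hlc : Continuous fun x => ‖G.lg c x‖ := (BD.lg_contDiff G c).continuous.norm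
  have hec : Continuous (G.ex c) := (BD.ex_contDiff G c).continuous
  refine ⟨isOpen_lt hlc continuous_const, ?_, isOpen_lt continuous_const hlc, ?_, ?_⟩
  · have h1 : {x : E n | ‖G.lg c x‖ < r} = G.ex c '' Metric.ball (0 : E n) r := by
      rw [← BD.eq_image G c]
      ext x
      simp
    rw [h1]
    exact (convex_ball _ _).isPreconnected.image _ hec.continuousOn
  · have h1 : {x : E n | r < ‖G.lg c x‖} = G.ex c '' {v : E n | r < ‖v‖} := by
      rw [← BD.eq_image G c]
      rfl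
    rw [h1]
    exact (BD.isPreconnected_ext hn hr).image _ hec.continuousOn
  · have h1 : {x : E n | ‖G.lg c x‖ = r} = G.ex c '' Metric.sphere (0 : E n) r := by
      rw [← BD.eq_image G c]
      ext x
      simp
    rw [h1]
    exact addHaar_image_eq_zero_of_differentiableOn_of_addHaar_eq_zero volume
      (((BD.ex_contDiff G c).differentiable (by simp)).differentiableOn)
      (Measure.addHaar_sphere_of_ne_zero volume _ hr.ne')

/-- Geodesic balls are smooth domains. -/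
theorem exists_ballDomain {n : ℕ} (hn : 2 ≤ n) (G : TP.Geo n) (c : E n) {r : ℝ} (hr : 0 < r) :
    ∃ D : SmoothDomain n, D.carrier = {x : E n | ‖G.lg c x‖ < r} := by
  have hsm : ContDiff ℝ ∞ fun x : E n => ‖G.lg c x‖ ^ 2 - r ^ 2 :=
    ((BD.lg_contDiff G c).norm_sq ℝ).sub contDiff_const
  have hlt : ∀ x : E n, ‖G.lg c x‖ ^ 2 - r ^ 2 < 0 ↔ ‖G.lg c x‖ < r := fun x => by
    rw [sub_neg, sq_lt_sq₀ (norm_nonneg _) hr.le]
  refine ⟨⟨fun x => ‖G.lg c x‖ ^ 2 - r ^ 2, hsm, ?_, ?_⟩, ?_⟩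
  · have hK : IsCompact (G.ex c '' Metric.closedBall (0 : E n) r) :=
      (isCompact_closedBall _ _).image (BD.ex_contDiff G c).continuous
    obtain ⟨R, hR⟩ := hK.isBounded.exists_norm_le
    refine ⟨R, fun x hx i => ?_⟩
    have h1 : x ∈ G.ex c '' Metric.closedBall (0 : E n) r :=
      ⟨G.lg c x, by simpa using ((hlt x).1 hx).le, G.ex_lg c x⟩
    have h2 : ‖x i‖ ≤ ‖x‖ := PiLp.norm_apply_le x i
    exact (by simpa using h2 : |x i| ≤ ‖x‖).trans (hR x h1)
  · intro x hx
    by_contra hcon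
    push Not at hcon
    have hdf : DifferentiableAt ℝ (fun x : E n => ‖G.lg c x‖ ^ 2 - r ^ 2) x :=
      (hsm.differentiable (by simp)) x
    have h0 := BD.fderiv_eq_zero hdf hcon
    set v : E n := G.lg c x with hv
    have hxv : G.ex c ((1 : ℝ) • v) = x := by rw [one_smul, hv, G.ex_lg]
    have h1 := G.ex_deriv 1 c v
    have h2 : HasFDerivAt (fun x : E n => ‖G.lg c x‖ ^ 2 - r ^ 2) (0 : E n →L[ℝ] ℝ)
        (G.ex c ((1 : ℝ) • v)) := by
      rw [hxv, ← h0]
      exact hdf.hasFDerivAt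
    have h3 := h2.comp_hasDerivAt (1 : ℝ) h1
    have h4 : ((fun x : E n => ‖G.lg c x‖ ^ 2 - r ^ 2) ∘ fun s : ℝ => G.ex c (s • v)) =
        fun s : ℝ => s ^ 2 * ‖v‖ ^ 2 - r ^ 2 := by
      funext s
      simp only [Function.comp_apply]
      rw [G.lg_ex, norm_smul, mul_pow, Real.norm_eq_abs, sq_abs]
    rw [h4] at h3
    have h5 : HasDerivAt (fun s : ℝ => s ^ 2 * ‖v‖ ^ 2 - r ^ 2) (2 * ‖v‖ ^ 2) 1 := by
      have := ((hasDerivAt_pow 2 (1 : ℝ)).mul_const (‖v‖ ^ 2)).sub_const (r ^ 2)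
      simpa using this
    have h6 := h3.unique h5
    have h7 : ‖v‖ ^ 2 = r ^ 2 := by
      have : ‖v‖ ^ 2 - r ^ 2 = 0 := hx
      linarith
    have h8 : (0 : ℝ) < r ^ 2 := by positivity
    simp only [zero_apply] at h6
    linarith
  · ext x
    exact hlt x

end Vale.Agent.P219.Co
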