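import Vale.Agent.P219.Bdl.B2

open MeasureTheory Set Filter Topology Metric
open scoped ENNReal NNReal ContDiff

namespace Vale.Agent.P219.N2

open Vale.Agent.P219.TP

theorem rfs_comp_le {n : ℕ} (G : Geo n) (z : E n) {F : E n → ℝ≥0∞} (hF : Measurable F) :
    ∫⁻ v, F (G.ex z v) ≤ ∫⁻ x, F x ∂G.vol := by
  rw [G.lintegral_vol_ex z hF]
  refine lintegral_mono fun v => ?_
  have h1 : (1 : ℝ≥0∞) ≤ ENNReal.ofReal |(G.T z v).det| := by
    rw [← ENNReal.ofReal_one]
    exact ENNReal.ofReal_le_ofReal (G.one_le_J z v)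
  calc F (G.ex z v) = 1 * F (G.ex z v) := (one_mul _).symm
    _ ≤ ENNReal.ofReal |(G.T z v).det| * F (G.ex z v) := by gcongr

/-- A sequence of nonnegative functions whose integrals tend to zero has a subsequence which tends
to zero almost everywhere. -/
theorem rfs_subseq {α : Type*} [MeasurableSpace α] {μ : Measure α} {W : ℕ → α → ℝ≥0∞}
    (hW : ∀ m, Measurable (W m)) (h : Tendsto (fun m => ∫⁻ v, W m v ∂μ) atTop (𝓝 0)) :
    ∃ φ : ℕ → ℕ, StrictMono φ ∧ ∀ᵐ v ∂μ, Tendsto (fun m => W (φ m) v) atTop (𝓝 0) := by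
  obtain ⟨ε, hε, hεs⟩ := ENNReal.exists_pos_sum_of_countable (ε := 1) one_ne_zero ℕ
  obtain ⟨φ, hφ, hφε⟩ := extraction_forall_of_eventually
    (P := fun k m => ∫⁻ v, W m v ∂μ < ε k) (fun k => h.eventually
      (gt_mem_nhds (show (0 : ℝ≥0∞) < ε k by exact_mod_cast hε k)))
  refine ⟨φ, hφ, ?_⟩
  have h1 : ∫⁻ v, ∑' m, W (φ m) v ∂μ ≠ ⊤ := by
    rw [lintegral_tsum fun m => (hW (φ m)).aemeasurable]
    refine ne_top_of_le_ne_top (ne_of_lt (hεs.trans ENNReal.one_lt_top)) ?_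
    exact ENNReal.tsum_le_tsum fun m => (hφε m).le
  filter_upwards [ae_lt_top (Measurable.tsum fun m => hW (φ m)) h1] with v hv
  exact ENNReal.tendsto_atTop_zero_of_tsum_ne_top hv.ne

theorem rfs_conv {n : ℕ} (G : Geo n) {S : Set (E n)} (hS : MeasurableSet S)
    (_hSf : G.vol S ≠ ⊤) {h : ℕ → E n → ℝ} (hh : ∀ j, Continuous (h j))
    (h0 : ∀ j x, 0 ≤ h j x) (h1 : ∀ j x, h j x ≤ 1)
    (hd : Tendsto (fun j => ∫⁻ x, ENNReal.ofReal |h j x - S.indicator (fun _ => (1 : ℝ)) x| ∂G.vol)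
      atTop (𝓝 0))
    (hlay : Tendsto (fun j => G.vol {x | 0 < h j x ∧ h j x < 1}) atTop (𝓝 0))
    {j : ℕ → ℕ} (hj : Tendsto j atTop atTop) {y : ℕ → E n} {p : E n}
    (hy : Tendsto y atTop (𝓝 p)) {L : Set (E n)} (hL : IsCompact L)
    (hLs : ∀ j x, x ∉ L → h j x = 0) :
    ∃ φ : ℕ → ℕ, StrictMono φ ∧ ∀ᵐ v : E n, ∀ᶠ m in atTop,
      h (j (φ m)) (G.ex (y (φ m)) v) = S.indicator (fun _ => (1 : ℝ)) (G.ex p v) := by
  set χ : E n → ℝ := S.indicator (fun _ => (1 : ℝ)) with hχ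
  have hχm : Measurable χ := measurable_const.indicator hS
  have hexc : Continuous fun z : E n × E n => G.ex z.1 z.2 := G.ex_smooth.continuous
  have hlgc : Continuous fun z : E n × E n => G.lg z.1 z.2 := G.lg_smooth.continuous
  have hex : ∀ z, Continuous (G.ex z) := fun z => hexc.comp (continuous_const.prodMk continuous_id)
  -- the distance of the pulled back functions
  set D : ℕ → ℝ≥0∞ := fun i => ∫⁻ x, ENNReal.ofReal |h i x - χ x| ∂G.vol with hD
  have hmd : ∀ i, Measurable fun x => ENNReal.ofReal |h i x - χ x| := fun i =>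
    ((hh i).measurable.sub hχm).abs.ennreal_ofReal
  have hK : IsCompact (insert p (range y)) := hy.isCompact_insert_range
  obtain ⟨R, hR⟩ := ((hK.prod hL).image hlgc).isBounded.exists_norm_le
  have hzero : ∀ i m v, v ∉ closedBall (0 : E n) R → h i (G.ex (y m) v) = 0 := by
    intro i m v hv
    refine hLs i _ fun hx => hv ?_
    rw [mem_closedBall_zero_iff]
    have := hR (G.lg (y m) (G.ex (y m) v))
      ⟨(y m, G.ex (y m) v), ⟨mem_insert_of_mem _ (mem_range_self m), hx⟩, rfl⟩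
    rwa [G.lg_ex] at this
  have hzero' : ∀ i v, v ∉ closedBall (0 : E n) R → h i (G.ex p v) = 0 := by
    intro i v hv
    refine hLs i _ fun hx => hv ?_
    rw [mem_closedBall_zero_iff]
    have := hR (G.lg p (G.ex p v)) ⟨(p, G.ex p v), ⟨mem_insert _ _, hx⟩, rfl⟩
    rwa [G.lg_ex] at this
  have hmid : ∀ i, Tendsto (fun m => ∫⁻ v, ENNReal.ofReal |h i (G.ex (y m) v) - h i (G.ex p v)|)
      atTop (𝓝 0) := by
    intro i
    have h2 : Tendsto (fun m => ∫⁻ v, ENNReal.ofReal |h i (G.ex (y m) v) - h i (G.ex p v)|)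
        atTop (𝓝 (∫⁻ _ : E n, 0)) := by
      refine tendsto_lintegral_of_dominated_convergence
        ((closedBall (0 : E n) R).indicator fun _ => (1 : ℝ≥0∞)) (fun m => ?_) (fun m => ?_) ?_ ?_
      · exact (((hh i).comp (hex (y m))).sub ((hh i).comp (hex p))).abs.measurable.ennreal_ofReal
      · refine Eventually.of_forall fun v => ?_
        show ENNReal.ofReal |h i (G.ex (y m) v) - h i (G.ex p v)| ≤
          (closedBall (0 : E n) R).indicator (fun _ => (1 : ℝ≥0∞)) v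
        by_cases hv : v ∈ closedBall (0 : E n) R
        · rw [indicator_of_mem hv, ← ENNReal.ofReal_one]
          refine ENNReal.ofReal_le_ofReal ?_
          rw [abs_le]
          constructor
          · linarith [h0 i (G.ex (y m) v), h1 i (G.ex p v)]
          · linarith [h1 i (G.ex (y m) v), h0 i (G.ex p v)]
        · rw [indicator_of_notMem hv, hzero i m v hv, hzero' i v hv, sub_zero, abs_zero,
            ENNReal.ofReal_zero]
      · rw [lintegral_indicator isClosed_closedBall.measurableSet, setLIntegral_one]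
        exact measure_closedBall_lt_top.ne
      · refine Eventually.of_forall fun v => ?_
        have h3 : Tendsto (fun m => G.ex (y m) v) atTop (𝓝 (G.ex p v)) :=
          (hexc.tendsto (p, v)).comp (hy.prodMk_nhds tendsto_const_nhds)
        have h4 : Tendsto (fun m => ENNReal.ofReal |h i (G.ex (y m) v) - h i (G.ex p v)|) atTop
            (𝓝 (ENNReal.ofReal |h i (G.ex p v) - h i (G.ex p v)|)) :=
          (ENNReal.continuous_ofReal.tendsto _).comp
            (((((hh i).tendsto _).comp h3).sub_const _).abs)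
        rwa [sub_self, abs_zero, ENNReal.ofReal_zero] at h4
    rwa [lintegral_zero] at h2
  set W₁ : ℕ → E n → ℝ≥0∞ := fun m v =>
    ENNReal.ofReal |h (j m) (G.ex (y m) v) - χ (G.ex p v)| with hW₁
  set W₂ : ℕ → E n → ℝ≥0∞ := fun m v =>
    {x | 0 < h (j m) x ∧ h (j m) x < 1}.indicator (fun _ => (1 : ℝ≥0∞)) (G.ex (y m) v) with hW₂
  have hlm : ∀ i, MeasurableSet {x | 0 < h i x ∧ h i x < 1} := fun i =>
    (isOpen_lt continuous_const (hh i)).measurableSet.inter
      (isOpen_lt (hh i) continuous_const).measurableSet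
  have hm₁ : ∀ m, Measurable (W₁ m) := fun m =>
    (((hh _).comp (hex (y m))).measurable.sub (hχm.comp (hex p).measurable)).abs.ennreal_ofReal
  have hm₂ : ∀ m, Measurable (W₂ m) := fun m =>
    (measurable_const.indicator (hlm (j m))).comp (hex (y m)).measurable
  have t₂ : Tendsto (fun m => ∫⁻ v, W₂ m v) atTop (𝓝 0) := by
    refine tendsto_of_tendsto_of_tendsto_of_le_of_le tendsto_const_nhds (hlay.comp hj)
      (fun _ => bot_le) fun m => ?_
    refine (rfs_comp_le G (y m) (measurable_const.indicator (hlm (j m)))).trans (le_of_eq ?_)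
    rw [lintegral_indicator (hlm (j m)), setLIntegral_one]
    rfl
  have t₁ : Tendsto (fun m => ∫⁻ v, W₁ m v) atTop (𝓝 0) := by
    rw [ENNReal.tendsto_nhds_zero]
    intro ε hε
    obtain ⟨δ, hδ, hδε⟩ : ∃ δ : ℝ≥0∞, 0 < δ ∧ δ + δ + δ + δ ≤ ε := by
      refine ⟨ε / 4, ENNReal.div_pos hε.ne' (by norm_num), ?_⟩
      have h4 : ε / 4 + ε / 4 + ε / 4 + ε / 4 = 4 * (ε / 4) := by ring
      rw [h4]
      exact ENNReal.mul_div_le
    have e1 : ∀ᶠ i in atTop, D i < δ := hd.eventually (gt_mem_nhds hδ)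
    obtain ⟨i, hi⟩ := e1.exists
    filter_upwards [hj.eventually e1, (hmid i).eventually (gt_mem_nhds hδ)] with m hm1 hm2
    have hle : ∀ v, W₁ m v ≤ ENNReal.ofReal |h (j m) (G.ex (y m) v) - χ (G.ex (y m) v)| +
        ENNReal.ofReal |h i (G.ex (y m) v) - χ (G.ex (y m) v)| +
        ENNReal.ofReal |h i (G.ex (y m) v) - h i (G.ex p v)| +
        ENNReal.ofReal |h i (G.ex p v) - χ (G.ex p v)| := by
      intro v
      rw [← ENNReal.ofReal_add (abs_nonneg _) (abs_nonneg _),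
        ← ENNReal.ofReal_add (by positivity) (abs_nonneg _),
        ← ENNReal.ofReal_add (by positivity) (abs_nonneg _)]
      refine ENNReal.ofReal_le_ofReal ?_
      have a1 := abs_sub_le (h (j m) (G.ex (y m) v)) (χ (G.ex (y m) v)) (χ (G.ex p v))
      have a2 := abs_sub_le (χ (G.ex (y m) v)) (h i (G.ex (y m) v)) (χ (G.ex p v))
      have a3 := abs_sub_le (h i (G.ex (y m) v)) (h i (G.ex p v)) (χ (G.ex p v))
      have a4 := abs_sub_comm (χ (G.ex (y m) v)) (h i (G.ex (y m) v))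
      linarith
    have m1 : Measurable fun v => ENNReal.ofReal |h (j m) (G.ex (y m) v) - χ (G.ex (y m) v)| :=
      (hmd (j m)).comp (hex (y m)).measurable
    have m2 : Measurable fun v => ENNReal.ofReal |h i (G.ex (y m) v) - χ (G.ex (y m) v)| :=
      (hmd i).comp (hex (y m)).measurable
    have m3 : Measurable fun v => ENNReal.ofReal |h i (G.ex (y m) v) - h i (G.ex p v)| :=
      (((hh i).comp (hex (y m))).sub ((hh i).comp (hex p))).abs.measurable.ennreal_ofReal
    have s1 : ∫⁻ v, (ENNReal.ofReal |h (j m) (G.ex (y m) v) - χ (G.ex (y m) v)| +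
        ENNReal.ofReal |h i (G.ex (y m) v) - χ (G.ex (y m) v)| +
        ENNReal.ofReal |h i (G.ex (y m) v) - h i (G.ex p v)| +
        ENNReal.ofReal |h i (G.ex p v) - χ (G.ex p v)|) =
        (∫⁻ v, (ENNReal.ofReal |h (j m) (G.ex (y m) v) - χ (G.ex (y m) v)| +
        ENNReal.ofReal |h i (G.ex (y m) v) - χ (G.ex (y m) v)| +
        ENNReal.ofReal |h i (G.ex (y m) v) - h i (G.ex p v)|)) +
        ∫⁻ v, ENNReal.ofReal |h i (G.ex p v) - χ (G.ex p v)| :=
      lintegral_add_left ((m1.add m2).add m3) _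
    have s2 : ∫⁻ v, (ENNReal.ofReal |h (j m) (G.ex (y m) v) - χ (G.ex (y m) v)| +
        ENNReal.ofReal |h i (G.ex (y m) v) - χ (G.ex (y m) v)| +
        ENNReal.ofReal |h i (G.ex (y m) v) - h i (G.ex p v)|) =
        (∫⁻ v, (ENNReal.ofReal |h (j m) (G.ex (y m) v) - χ (G.ex (y m) v)| +
        ENNReal.ofReal |h i (G.ex (y m) v) - χ (G.ex (y m) v)|)) +
        ∫⁻ v, ENNReal.ofReal |h i (G.ex (y m) v) - h i (G.ex p v)| :=
      lintegral_add_left (m1.add m2) _
    have s3 : ∫⁻ v, (ENNReal.ofReal |h (j m) (G.ex (y m) v) - χ (G.ex (y m) v)| +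
        ENNReal.ofReal |h i (G.ex (y m) v) - χ (G.ex (y m) v)|) =
        (∫⁻ v, ENNReal.ofReal |h (j m) (G.ex (y m) v) - χ (G.ex (y m) v)|) +
        ∫⁻ v, ENNReal.ofReal |h i (G.ex (y m) v) - χ (G.ex (y m) v)| :=
      lintegral_add_left m1 _
    calc ∫⁻ v, W₁ m v ≤ ∫⁻ v, (ENNReal.ofReal |h (j m) (G.ex (y m) v) - χ (G.ex (y m) v)| +
        ENNReal.ofReal |h i (G.ex (y m) v) - χ (G.ex (y m) v)| +
        ENNReal.ofReal |h i (G.ex (y m) v) - h i (G.ex p v)| +
        ENNReal.ofReal |h i (G.ex p v) - χ (G.ex p v)|) := lintegral_mono hle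
      _ = (∫⁻ v, ENNReal.ofReal |h (j m) (G.ex (y m) v) - χ (G.ex (y m) v)|) +
        (∫⁻ v, ENNReal.ofReal |h i (G.ex (y m) v) - χ (G.ex (y m) v)|) +
        (∫⁻ v, ENNReal.ofReal |h i (G.ex (y m) v) - h i (G.ex p v)|) +
        ∫⁻ v, ENNReal.ofReal |h i (G.ex p v) - χ (G.ex p v)| := by
          rw [s1, s2, s3]
      _ ≤ D (j m) + D i + δ + D i := by
          refine add_le_add (add_le_add (add_le_add ?_ ?_) hm2.le) ?_
          · exact rfs_comp_le G (y m) (hmd (j m))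
          · exact rfs_comp_le G (y m) (hmd i)
          · exact rfs_comp_le G p (hmd i)
      _ ≤ δ + δ + δ + δ := by gcongr
      _ ≤ ε := hδε
  have tW : Tendsto (fun m => ∫⁻ v, (W₁ m v + W₂ m v)) atTop (𝓝 0) := by
    have h2 := t₁.add t₂
    rw [add_zero] at h2
    refine h2.congr fun m => ?_
    rw [lintegral_add_left (hm₁ m)]
  obtain ⟨φ, hφ, hae⟩ := rfs_subseq (fun m => (hm₁ m).add (hm₂ m)) tW
  refine ⟨φ, hφ, ?_⟩
  filter_upwards [hae] with v hv
  have hhalf : (0 : ℝ≥0∞) < ENNReal.ofReal (1 / 2) := by simp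
  filter_upwards [hv.eventually (gt_mem_nhds hhalf)] with m hm
  have hm1 : W₁ (φ m) v < ENNReal.ofReal (1 / 2) := lt_of_le_of_lt le_self_add hm
  have hm2 : W₂ (φ m) v < ENNReal.ofReal (1 / 2) := lt_of_le_of_lt le_add_self hm
  have hnl : ¬ (0 < h (j (φ m)) (G.ex (y (φ m)) v) ∧ h (j (φ m)) (G.ex (y (φ m)) v) < 1) := by
    intro hx
    have h3 : W₂ (φ m) v = 1 := by
      simp only [hW₂]
      rw [indicator_of_mem (show G.ex (y (φ m)) v ∈ {x | 0 < h (j (φ m)) x ∧ h (j (φ m)) x < 1}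
        from hx)]
    rw [h3, ← ENNReal.ofReal_one] at hm2
    have h4 := (ENNReal.ofReal_lt_ofReal_iff (by norm_num : (0 : ℝ) < 1 / 2)).1 hm2
    norm_num at h4
  have hdist : |h (j (φ m)) (G.ex (y (φ m)) v) - χ (G.ex p v)| < 1 / 2 :=
    (ENNReal.ofReal_lt_ofReal_iff (by norm_num : (0 : ℝ) < 1 / 2)).1 hm1
  have hχ01 : χ (G.ex p v) = 0 ∨ χ (G.ex p v) = 1 := by
    by_cases hx : G.ex p v ∈ S
    · right
      rw [hχ, indicator_of_mem hx]
    · left
      rw [hχ, indicator_of_notMem hx]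
  have hh01 : h (j (φ m)) (G.ex (y (φ m)) v) = 0 ∨ h (j (φ m)) (G.ex (y (φ m)) v) = 1 := by
    rcases (h0 (j (φ m)) (G.ex (y (φ m)) v)).eq_or_lt with e | e
    · exact Or.inl e.symm
    · right
      by_contra hne
      exact hnl ⟨e, lt_of_le_of_ne (h1 _ _) hne⟩
  rw [abs_lt] at hdist
  rcases hχ01 with e | e
  · rcases hh01 with e' | e'
    · rw [e, e']
    · exfalso
      rw [e, e'] at hdist
      linarith [hdist.2]
  · rcases hh01 with e' | e'
    · exfalso
      rw [e, e'] at hdist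
      linarith [hdist.1]
    · rw [e, e']

end Vale.Agent.P219.N2
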