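import Vale.Agent.P219.H817.R1

open MeasureTheory Set Filter Topology Matrix
open scoped ENNReal ContDiff

noncomputable section

namespace Vale.Agent.P219.Co

variable {n : ℕ}

namespace Cut

/-- Plateau functions close to the indicator, with almost the same total variation, compactly
supported. -/
theorem exists_plateau_cs (M : RiemMetric n) {S : Set (E n)} (hS : MeasurableSet S)
    {A : ℝ} (hA : 0 ≤ A)
    (happ : ∀ δ : ℝ, 0 < δ → ∃ f : E n → ℝ, ContDiff ℝ 1 f ∧ HasCompactSupport f ∧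
      ∫⁻ x, ENNReal.ofReal (|f x - S.indicator (fun _ => (1 : ℝ)) x| * volDensity M x) ∂leb n
        ≤ ENNReal.ofReal δ ∧ gradMass M f ≤ ENNReal.ofReal (A + δ)) {η : ℝ} (hη : 0 < η) :
    ∃ h : E n → ℝ, ContDiff ℝ 1 h ∧ (∀ x, 0 ≤ h x) ∧ (∀ x, h x ≤ 1) ∧
      HasCompactSupport h ∧ gradMass M h ≤ ENNReal.ofReal (A + η) ∧
      ∫⁻ x, ENNReal.ofReal (|h x - S.indicator (fun _ => (1 : ℝ)) x| * volDensity M x) ∂leb n
        ≤ ENNReal.ofReal η ∧ riemVol M {x | 0 < h x ∧ h x < 1} ≤ ENNReal.ofReal η := by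
  -- the width of the step
  obtain ⟨ε, hε, hε3, hεA⟩ : ∃ ε : ℝ, 0 < ε ∧ 3 * ε < 1 ∧ A + η / 2 < (1 - 3 * ε) * (A + η) := by
    have h1 : 0 < A + η := by linarith
    refine ⟨min (1 / 4) (η / (12 * (A + η))), by positivity, ?_, ?_⟩
    · have := min_le_left (1 / 4 : ℝ) (η / (12 * (A + η)))
      linarith
    · have h2 := min_le_right (1 / 4 : ℝ) (η / (12 * (A + η)))
      have h3 : η / (12 * (A + η)) * (A + η) = η / 12 := by field_simp
      have h4 : min (1 / 4 : ℝ) (η / (12 * (A + η))) * (A + η) ≤ η / 12 := by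
        rw [← h3]
        exact mul_le_mul_of_nonneg_right h2 h1.le
      nlinarith
  obtain ⟨f, hf, hcs, hfd, hfg⟩ := happ (min (η / 2) (ε * η)) (by positivity)
  have hfc := hf.continuous
  obtain ⟨κ, F, hκc, hκ0, hκn, hκe, hF, hF0, hF1, hFn, hFe, hint⟩ := exists_step hε
  -- the family of plateau functions
  set Φ : ℝ → ℝ → ℝ := fun t s => F (s - t) + F (-s - t) with hΦ
  have hΦd : ∀ t s, HasDerivAt (Φ t) (κ (s - t) - κ (-s - t)) s := by
    intro t s
    have h1 : HasDerivAt (fun s => F (s - t)) (κ (s - t)) s := by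
      have := (hF (s - t)).comp s ((hasDerivAt_id s).sub_const t)
      simpa [Function.comp_def] using this
    have h2 : HasDerivAt (fun s => F (-s - t)) (-κ (-s - t)) s := by
      have := (hF (-s - t)).comp s ((hasDerivAt_neg s).sub_const t)
      simpa [Function.comp_def] using this
    have h3 : HasDerivAt (Φ t) (κ (s - t) + -κ (-s - t)) s := h1.add h2
    rwa [← sub_eq_add_neg] at h3
  have hΦc : ∀ t, ContDiff ℝ 1 (Φ t) := by
    intro t
    rw [contDiff_one_iff_deriv]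
    refine ⟨fun s => (hΦd t s).differentiableAt, ?_⟩
    have : deriv (Φ t) = fun s => κ (s - t) - κ (-s - t) := funext fun s => (hΦd t s).deriv
    rw [this]
    fun_prop
  have hΦabs : ∀ t, 0 < t → ∀ s, Φ t s = F (|s| - t) := by
    intro t ht s
    rcases le_total 0 s with h | h
    · rw [abs_of_nonneg h]
      simp only [hΦ]
      rw [hFn (-s - t) (by linarith), add_zero]
    · rw [abs_of_nonpos h]
      simp only [hΦ]
      rw [hFn (s - t) (by linarith), zero_add]
  have hκabs : ∀ t, 0 < t → ∀ s, |κ (s - t) - κ (-s - t)| = κ (|s| - t) := by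
    intro t ht s
    rcases le_total 0 s with h | h
    · rw [abs_of_nonneg h, hκn (-s - t) (by linarith), sub_zero, abs_of_nonneg (hκ0 _)]
    · rw [abs_of_nonpos h, hκn (s - t) (by linarith), zero_sub, abs_neg, abs_of_nonneg (hκ0 _)]
  set g : E n → ℝ≥0∞ := fun x => ENNReal.ofReal (gradNorm M f x * volDensity M x) with hg
  have hgm : Measurable g :=
    ((gradNorm_cont M hf).mul (volDensity_cont M)).measurable.ennreal_ofReal
  have hfdd : Differentiable ℝ f := hf.differentiable one_ne_zero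
  have hmass : ∀ t, 0 < t → gradMass M (fun x => Φ t (f x)) =
      ∫⁻ x, ENNReal.ofReal (κ (|f x| - t)) * g x ∂leb n := by
    intro t ht
    unfold gradMass
    refine lintegral_congr fun x => ?_
    rw [gradNorm_comp M (hfdd x) (hΦd t (f x)), hκabs t ht, mul_assoc, ENNReal.ofReal_mul (hκ0 _)]
  -- a good level
  obtain ⟨t, ht, htm⟩ : ∃ t ∈ Ioo ε (1 - 2 * ε),
      gradMass M (fun x => Φ t (f x)) ≤ ENNReal.ofReal (A + η) := by
    by_contra hcon
    push Not at hcon
    have h1 : ENNReal.ofReal (1 - 3 * ε) * ENNReal.ofReal (A + η) ≤ gradMass M f := by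
      calc ENNReal.ofReal (1 - 3 * ε) * ENNReal.ofReal (A + η)
          = ∫⁻ _ in Ioo ε (1 - 2 * ε), ENNReal.ofReal (A + η) := by
            rw [setLIntegral_const, Real.volume_Ioo, mul_comm]
            congr 2
            ring
        _ ≤ ∫⁻ t in Ioo ε (1 - 2 * ε), ∫⁻ x, ENNReal.ofReal (κ (|f x| - t)) * g x ∂leb n := by
            refine setLIntegral_mono' measurableSet_Ioo fun t ht => ?_
            rw [← hmass t (hε.trans ht.1)]
            exact (hcon t ht).le
        _ ≤ ∫⁻ t, ∫⁻ x, ENNReal.ofReal (κ (|f x| - t)) * g x ∂leb n :=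
            setLIntegral_le_lintegral _ _
        _ = ∫⁻ x, (∫⁻ t, ENNReal.ofReal (κ (|f x| - t)) * g x) ∂leb n := by
            unfold leb
            refine lintegral_lintegral_swap ?_
            refine Measurable.aemeasurable ?_
            have hm1 : Measurable fun p : ℝ × E n => κ (|f p.2| - p.1) := by
              refine Continuous.measurable (hκc.comp ?_)
              exact (hf.continuous.comp continuous_snd).abs.sub continuous_fst
            exact hm1.ennreal_ofReal.mul (hgm.comp measurable_snd)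
        _ = gradMass M f := by
            unfold gradMass
            refine lintegral_congr fun x => ?_
            have hm2 : Measurable fun t => ENNReal.ofReal (κ (|f x| - t)) :=
              (hκc.measurable.comp (measurable_const.sub measurable_id)).ennreal_ofReal
            rw [lintegral_mul_const _ hm2]
            have h3 : ∫⁻ t, ENNReal.ofReal (κ (|f x| - t)) = 1 := by
              rw [lintegral_sub_left_eq_self (fun u => ENNReal.ofReal (κ u)) |f x|, hint]
            rw [h3, one_mul]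
    have h2 := h1.trans hfg
    rw [← ENNReal.ofReal_mul (by linarith), ENNReal.ofReal_le_ofReal_iff (by positivity)] at h2
    have h3 := min_le_left (η / 2) (ε * η)
    linarith
  have ht0 : 0 < t := hε.trans ht.1
  have hval : ∀ x, Φ t (f x) = F (|f x| - t) := fun x => hΦabs t ht0 (f x)
  -- the bad set
  have hm : Measurable fun x => |f x - S.indicator (fun _ => (1 : ℝ)) x| :=
    (hfc.measurable.sub (measurable_const.indicator hS)).abs
  set Bd : Set (E n) := {x | ε ≤ |f x - S.indicator (fun _ => (1 : ℝ)) x|} with hBd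
  have hBm : MeasurableSet Bd := measurableSet_le measurable_const hm
  have hbad : riemVol M Bd ≤ ENNReal.ofReal η := by
    have h1 := mul_meas_ge_le_lintegral₀ (μ := muG M) hm.ennreal_ofReal.aemeasurable
      (ENNReal.ofReal ε)
    have h2 : {x | ENNReal.ofReal ε ≤ ENNReal.ofReal |f x - S.indicator (fun _ => (1 : ℝ)) x|} =
        Bd := by
      ext x
      simp only [hBd, mem_ofPred_eq]
      exact ENNReal.ofReal_le_ofReal_iff (abs_nonneg _)
    rw [h2, muG_apply M hBm, lintegral_muG M hm.ennreal_ofReal] at h1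
    have h3 : ∀ x, ENNReal.ofReal |f x - S.indicator (fun _ => (1 : ℝ)) x| *
        ENNReal.ofReal (volDensity M x) =
        ENNReal.ofReal (|f x - S.indicator (fun _ => (1 : ℝ)) x| * volDensity M x) := fun x =>
      (ENNReal.ofReal_mul (abs_nonneg _)).symm
    simp only [h3] at h1
    have h4 : ENNReal.ofReal ε * riemVol M Bd ≤ ENNReal.ofReal ε * ENNReal.ofReal η := by
      refine h1.trans (hfd.trans ?_)
      rw [← ENNReal.ofReal_mul hε.le]
      exact ENNReal.ofReal_le_ofReal (min_le_right _ _)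
    exact (ENNReal.mul_le_mul_iff_right (by simpa using hε) ENNReal.ofReal_ne_top).1 h4
  have hgood : ∀ x, x ∉ Bd → Φ t (f x) = S.indicator (fun _ => (1 : ℝ)) x := by
    intro x hx
    have hx' : |f x - S.indicator (fun _ => (1 : ℝ)) x| < ε := not_le.1 hx
    rw [hval]
    by_cases hxS : x ∈ S
    · rw [indicator_of_mem hxS] at hx' ⊢
      have h1 := abs_sub_abs_le_abs_sub (1 : ℝ) (f x)
      rw [abs_sub_comm, abs_one] at h1
      have := ht.2
      exact hFe _ (by linarith)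
    · rw [indicator_of_notMem hxS, sub_zero] at hx'
      rw [indicator_of_notMem hxS]
      have := ht.1
      exact hFn _ (by linarith)
  refine ⟨fun x => Φ t (f x), (hΦc t).comp hf, fun x => ?_, fun x => ?_, ?_, htm, ?_,
    ?_⟩
  · show 0 ≤ Φ t (f x)
    rw [hval]
    exact hF0 _
  · show Φ t (f x) ≤ 1
    rw [hval]
    exact hF1 _
  · have hΦ0 : Φ t 0 = 0 := by
      rw [hΦabs t ht0, abs_zero]
      exact hFn _ (by linarith)
    exact hcs.comp_left (g := Φ t) hΦ0
  · calc ∫⁻ x, ENNReal.ofReal (|Φ t (f x) - S.indicator (fun _ => (1 : ℝ)) x| *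
          volDensity M x) ∂leb n
        ≤ ∫⁻ x, Bd.indicator (fun x => ENNReal.ofReal (volDensity M x)) x ∂leb n := by
          refine lintegral_mono fun x => ?_
          by_cases hx : x ∈ Bd
          · rw [indicator_of_mem hx]
            refine ENNReal.ofReal_le_ofReal ?_
            have h1 : |Φ t (f x) - S.indicator (fun _ => (1 : ℝ)) x| ≤ 1 := by
              have h2 : 0 ≤ Φ t (f x) := by rw [hval]; exact hF0 _
              have h3 : Φ t (f x) ≤ 1 := by rw [hval]; exact hF1 _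
              have h4 : 0 ≤ S.indicator (fun _ => (1 : ℝ)) x :=
                indicator_nonneg (fun _ _ => zero_le_one) x
              have h5 : S.indicator (fun _ => (1 : ℝ)) x ≤ 1 :=
                indicator_le_self' (fun _ _ => zero_le_one) x
              rw [abs_le]
              constructor <;> linarith
            calc |Φ t (f x) - S.indicator (fun _ => (1 : ℝ)) x| * volDensity M x
                ≤ 1 * volDensity M x := mul_le_mul_of_nonneg_right h1 (volDensity_pos M x).le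
              _ = volDensity M x := one_mul _
          · rw [hgood x hx, sub_self, abs_zero, zero_mul, ENNReal.ofReal_zero]
            exact bot_le
      _ = riemVol M Bd := lintegral_indicator hBm _
      _ ≤ ENNReal.ofReal η := hbad
  · refine (riemVol_mono M fun x hx => ?_).trans hbad
    by_contra hxB
    have h1 := hgood x hxB
    have hx1 : 0 < Φ t (f x) := hx.1
    have hx2 : Φ t (f x) < 1 := hx.2
    by_cases hxS : x ∈ S
    · rw [indicator_of_mem hxS] at h1
      linarith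
    · rw [indicator_of_notMem hxS] at h1
      linarith

theorem gradMass_mu (M : RiemMetric n) {f : E n → ℝ} (hf : ContDiff ℝ 1 f) :
    gradMass M f = ∫⁻ x, ENNReal.ofReal (gradNorm M f x) ∂muG M := by
  rw [lintegral_muG M (gradNorm_cont M hf).measurable.ennreal_ofReal]
  unfold gradMass
  refine lintegral_congr fun x => ?_
  rw [ENNReal.ofReal_mul (gradNorm_nonneg M f x)]

/-- The distance to a point and an orthonormal frame. -/
theorem exists_geo {K : ℝ} (hK : K ≤ 0) (M : RiemMetric n) (hM : GeodesicallyComplete M)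
    (hs : SecLE M K) : ∃ (Fo : E n → ℝ) (A : E n → E n →L[ℝ] E n), ContDiff ℝ ∞ Fo ∧
      (∀ x, 0 ≤ Fo x) ∧ (∀ t : ℝ, IsCompact {x | √(2 * Fo x) ≤ t}) ∧
      (∀ x, gradNorm M Fo x = √(2 * Fo x)) ∧
      ∀ (f : E n → ℝ) (x : E n), Differentiable ℝ f →
        gradNorm M f x = ‖(fderiv ℝ f x).comp (A x)‖ := by
  obtain ⟨e, he⟩ := CH.exists_triangularFrame (old M)
  obtain ⟨F⟩ := CH.exists_gflow (CH.isMetricOn (old M)) (geoComplete_old hM)
  have hs0 : Vale.Agent.P219.SecLE (old M) 0 := secLE_old_of_frame ⟨e, he⟩ (secLE_zero_co hK hs)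
  set G := CH.toGeo (old M) e he hs0 F with hG
  set Fo : E n → ℝ := End.FG G 0 0 with hFo
  have hFs : ContDiff ℝ ∞ Fo := End.FG_smooth_right G 0 0
  have hF0 : ∀ x, 0 ≤ Fo x := End.FG_nonneg G 0 0
  have hFd : Differentiable ℝ Fo := hFs.differentiable (by simp)
  have hsq : ∀ x, ‖G.lg 0 x‖ ^ 2 = 2 * Fo x := by
    intro x
    have h := End.sn_sq_eq_FG G 0 0 x
    have h2 : TPH.sn 0 ‖G.lg 0 x‖ = ‖G.lg 0 x‖ := by
      unfold TPH.sn
      simp
    rw [h2] at h
    rw [h]
    ring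
  have hgD : ∀ (f : E n → ℝ) (x : E n), Differentiable ℝ f → gradNorm M f x = ‖G.D f x‖ := by
    intro f x hf
    have h1 := CH.norm_D_eq he hs0 F f x
    rw [gradNorm_old (frame_of_old he) hf] at h1
    exact h1.symm
  refine ⟨Fo, G.A, hFs, hF0, fun t => ?_, fun x => ?_, fun f x hf => ?_⟩
  · have h1 : {x : E n | √(2 * Fo x) ≤ t} = {x | ‖G.lg 0 x‖ ≤ t} := by
      ext x
      simp only [mem_ofPred_eq]
      rw [← hsq, Real.sqrt_sq (norm_nonneg _)]
    rw [h1]
    exact G.isCompact_gball 0 t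
  · rw [hgD Fo x hFd]
    have h2 : ‖G.D Fo x‖ ^ 2 = 2 * Fo x + 0 ^ 2 * Fo x ^ 2 := End.norm_D_FG G 0 0 x
    rw [← Real.sqrt_sq (norm_nonneg (G.D Fo x)), h2]
    congr 1
    ring
  · rw [hgD f x hf]
    unfold TP.Geo.D
    rw [LinearIsometryEquiv.norm_map]

/-- The gradients of `h χ` and `h (1 - χ)`. -/
theorem sum_bound (M : RiemMetric n) {A : E n → E n →L[ℝ] E n}
    (hA : ∀ (f : E n → ℝ) (x : E n), Differentiable ℝ f →
      gradNorm M f x = ‖(fderiv ℝ f x).comp (A x)‖) {h χ : E n → ℝ} (hh : Differentiable ℝ h)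
    (h0 : ∀ x, 0 ≤ h x) (hχ : Differentiable ℝ χ) (χ0 : ∀ x, 0 ≤ χ x) (χ1 : ∀ x, χ x ≤ 1) (x : E n) :
    gradNorm M (fun y => h y * χ y) x + gradNorm M (fun y => h y * (1 - χ y)) x ≤
      gradNorm M h x + 2 * (h x * gradNorm M χ x) := by
  have hχ' : Differentiable ℝ fun y => 1 - χ y := (differentiable_const _).sub hχ
  have d1 : fderiv ℝ (fun y => h y * χ y) x = h x • fderiv ℝ χ x + χ x • fderiv ℝ h x :=
    ((hh x).hasFDerivAt.mul (hχ x).hasFDerivAt).fderiv
  have d3 : HasFDerivAt (fun y => 1 - χ y) (-fderiv ℝ χ x) x := by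
    have := (hχ x).hasFDerivAt.const_sub (1 : ℝ)
    exact this
  have d2 : fderiv ℝ (fun y => h y * (1 - χ y)) x =
      h x • (-fderiv ℝ χ x) + (1 - χ x) • fderiv ℝ h x :=
    ((hh x).hasFDerivAt.mul d3).fderiv
  rw [hA (fun y => h y * χ y) x (hh.mul hχ), hA (fun y => h y * (1 - χ y)) x (hh.mul hχ'),
    hA h x hh, hA χ x hχ, d1, d2]
  set a := (fderiv ℝ h x).comp (A x) with ha
  set b := (fderiv ℝ χ x).comp (A x) with hb
  have e1 : (h x • fderiv ℝ χ x + χ x • fderiv ℝ h x).comp (A x) = h x • b + χ x • a := by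
    rw [ha, hb]
    ext v
    simp
  have e2 : (h x • (-fderiv ℝ χ x) + (1 - χ x) • fderiv ℝ h x).comp (A x) =
      h x • (-b) + (1 - χ x) • a := by
    rw [ha, hb]
    ext v
    simp
  rw [e1, e2]
  have n1 : ‖h x • b + χ x • a‖ ≤ h x * ‖b‖ + χ x * ‖a‖ := by
    refine (norm_add_le _ _).trans (le_of_eq ?_)
    rw [norm_smul, norm_smul, Real.norm_of_nonneg (h0 x), Real.norm_of_nonneg (χ0 x)]
  have n2 : ‖h x • (-b) + (1 - χ x) • a‖ ≤ h x * ‖b‖ + (1 - χ x) * ‖a‖ := by
    refine (norm_add_le _ _).trans (le_of_eq ?_)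
    rw [norm_smul, norm_smul, norm_neg, Real.norm_of_nonneg (h0 x),
      Real.norm_of_nonneg (by linarith [χ1 x] : (0 : ℝ) ≤ 1 - χ x)]
  nlinarith

/-- One step: the functional inequality for `h χ` and `h (1 - χ)`. -/
theorem step (hn : 2 ≤ n) {K : ℝ} (hK : K ≤ 0) (M : RiemMetric n)
    (hM : GeodesicallyComplete M) (hs : SecLE M K) {A : E n → E n →L[ℝ] E n}
    (hA : ∀ (f : E n → ℝ) (x : E n), Differentiable ℝ f →
      gradNorm M f x = ‖(fderiv ℝ f x).comp (A x)‖) {S : Set (E n)} (hS : MeasurableSet S)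
    (hfin : riemVol M S ≠ ⊤) {P : ℝ} (hP : 0 ≤ P) {δ : ℝ} (hδ : 0 < δ)
    {h : E n → ℝ} (hh : ContDiff ℝ 1 h) (h0 : ∀ x, 0 ≤ h x) (h1 : ∀ x, h x ≤ 1)
    (hc : HasCompactSupport h) (hg : gradMass M h ≤ ENNReal.ofReal (P + δ))
    (hd : ∫⁻ x, ENNReal.ofReal (|h x - S.indicator (fun _ => (1 : ℝ)) x| * volDensity M x) ∂leb n
      ≤ ENNReal.ofReal δ) {χ : E n → ℝ} (hχ : ContDiff ℝ 1 χ) (χ0 : ∀ x, 0 ≤ χ x)
    (χ1 : ∀ x, χ x ≤ 1) {X Y : Set (E n)} (hX : MeasurableSet X) (hY : MeasurableSet Y)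
    (χX : ∀ x ∈ X, χ x = 1) (χY : ∀ x, x ∉ Y → χ x = 0) {D : ℝ} (hD : 0 ≤ D)
    (χg : ∀ x, gradNorm M χ x ≤ D) (χg0 : ∀ x, x ∉ Y \ X → gradNorm M χ x = 0)
    {R₁ R₂ : ℝ} (hR₁ : 0 ≤ R₁) (hR₂ : 0 ≤ R₂)
    (hV₁ : ENNReal.ofReal (modelVol n K R₁) ≤ riemVol M ({x | h x = 1} ∩ X))
    (hV₂ : ENNReal.ofReal (modelVol n K R₂) ≤ riemVol M ({x | h x = 1} \ Y)) :
    modelArea n K R₁ + modelArea n K R₂ ≤
      P + δ + 2 * D * ((riemVol M (S ∩ (Y \ X))).toReal + δ) := by
  have hχ' : ContDiff ℝ 1 fun y => 1 - χ y := contDiff_const.sub hχ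
  have k1 : ENNReal.ofReal (modelArea n K R₁) ≤ gradMass M (fun y => h y * χ y) := by
    refine plateau hn hK M hM hs (hh.mul hχ) hc.mul_right (fun x => ⟨mul_nonneg (h0 x) (χ0 x),
      mul_le_one₀ (h1 x) (χ0 x) (χ1 x)⟩) hR₁ (hV₁.trans (riemVol_mono M ?_))
    rintro x ⟨hx1, hx2⟩
    have hx1' : h x = 1 := hx1
    change h x * χ x = 1
    rw [hx1', χX x hx2, one_mul]
  have k2 : ENNReal.ofReal (modelArea n K R₂) ≤ gradMass M (fun y => h y * (1 - χ y)) := by
    refine plateau hn hK M hM hs (hh.mul hχ') hc.mul_right (fun x =>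
      ⟨mul_nonneg (h0 x) (by linarith [χ1 x]), mul_le_one₀ (h1 x) (by linarith [χ1 x])
        (by linarith [χ0 x])⟩) hR₂ (hV₂.trans (riemVol_mono M ?_))
    rintro x ⟨hx1, hx2⟩
    have hx1' : h x = 1 := hx1
    change h x * (1 - χ x) = 1
    rw [hx1', χY x hx2, one_mul, sub_zero]
  have hhd : Differentiable ℝ h := hh.differentiable one_ne_zero
  have hχd : Differentiable ℝ χ := hχ.differentiable one_ne_zero
  have hann : MeasurableSet (Y \ X) := hY.diff hX
  have hmd : Measurable fun x => |h x - S.indicator (fun _ => (1 : ℝ)) x| :=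
    (hh.continuous.measurable.sub (measurable_const.indicator hS)).abs
  have hd' : ∫⁻ x, ENNReal.ofReal |h x - S.indicator (fun _ => (1 : ℝ)) x| ∂muG M ≤
      ENNReal.ofReal δ := by
    rw [lintegral_muG M hmd.ennreal_ofReal]
    refine le_trans (le_of_eq (lintegral_congr fun x => ?_)) hd
    rw [ENNReal.ofReal_mul (abs_nonneg _)]
  -- the mass of `h` in the annulus
  have hmass : ∫⁻ x in Y \ X, ENNReal.ofReal (h x) ∂muG M ≤
      riemVol M (S ∩ (Y \ X)) + ENNReal.ofReal δ := by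
    calc ∫⁻ x in Y \ X, ENNReal.ofReal (h x) ∂muG M
        ≤ ∫⁻ x in Y \ X, (S.indicator (fun _ => (1 : ℝ≥0∞)) x +
          ENNReal.ofReal |h x - S.indicator (fun _ => (1 : ℝ)) x|) ∂muG M := by
          refine lintegral_mono fun x => ?_
          by_cases hx : x ∈ S
          · rw [indicator_of_mem hx, indicator_of_mem hx]
            refine le_trans ?_ le_self_add
            rw [← ENNReal.ofReal_one]
            exact ENNReal.ofReal_le_ofReal (h1 x)
          · rw [indicator_of_notMem hx, indicator_of_notMem hx, zero_add, sub_zero,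
              abs_of_nonneg (h0 x)]
      _ = (∫⁻ x in Y \ X, S.indicator (fun _ => (1 : ℝ≥0∞)) x ∂muG M) +
          ∫⁻ x in Y \ X, ENNReal.ofReal |h x - S.indicator (fun _ => (1 : ℝ)) x| ∂muG M :=
          lintegral_add_left (measurable_const.indicator hS) _
      _ ≤ riemVol M (S ∩ (Y \ X)) + ENNReal.ofReal δ := by
          refine add_le_add (le_of_eq ?_) ((setLIntegral_le_lintegral _ _).trans hd')
          rw [lintegral_indicator hS, setLIntegral_const, one_mul,
            Measure.restrict_apply hS, muG_apply M (hS.inter hann)]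
  have hsum : gradMass M (fun y => h y * χ y) + gradMass M (fun y => h y * (1 - χ y)) ≤
      gradMass M h + ENNReal.ofReal (2 * D) * (riemVol M (S ∩ (Y \ X)) + ENNReal.ofReal δ) := by
    rw [gradMass_mu M (hh.mul hχ), gradMass_mu M (hh.mul hχ'), gradMass_mu M hh,
      ← lintegral_add_left (gradNorm_cont M (hh.mul hχ)).measurable.ennreal_ofReal]
    calc ∫⁻ x, (ENNReal.ofReal (gradNorm M (fun y => h y * χ y) x) +
          ENNReal.ofReal (gradNorm M (fun y => h y * (1 - χ y)) x)) ∂muG M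
        ≤ ∫⁻ x, (ENNReal.ofReal (gradNorm M h x) + (Y \ X).indicator
          (fun x => ENNReal.ofReal (2 * D) * ENNReal.ofReal (h x)) x) ∂muG M := by
          refine lintegral_mono fun x => ?_
          rw [← ENNReal.ofReal_add (gradNorm_nonneg M _ x) (gradNorm_nonneg M _ x)]
          refine (ENNReal.ofReal_le_ofReal (sum_bound M hA hhd h0 hχd χ0 χ1 x)).trans ?_
          rw [ENNReal.ofReal_add (gradNorm_nonneg M _ x) (by
            have := mul_nonneg (h0 x) (gradNorm_nonneg M χ x)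
            linarith)]
          refine add_le_add le_rfl ?_
          by_cases hx : x ∈ Y \ X
          · rw [indicator_of_mem hx, ← ENNReal.ofReal_mul (by linarith)]
            refine ENNReal.ofReal_le_ofReal ?_
            have := mul_le_mul_of_nonneg_left (χg x) (h0 x)
            linarith
          · rw [indicator_of_notMem hx, χg0 x hx]
            simp
      _ = (∫⁻ x, ENNReal.ofReal (gradNorm M h x) ∂muG M) +
          ENNReal.ofReal (2 * D) * ∫⁻ x in Y \ X, ENNReal.ofReal (h x) ∂muG M := by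
          rw [lintegral_add_left (gradNorm_cont M hh).measurable.ennreal_ofReal,
            lintegral_indicator hann,
            lintegral_const_mul _ hh.continuous.measurable.ennreal_ofReal]
      _ ≤ _ := by gcongr
  have hVfin : riemVol M (S ∩ (Y \ X)) ≠ ⊤ :=
    ne_top_of_le_ne_top hfin (riemVol_mono M inter_subset_left)
  have hA1 := modelArea_nonneg (n := n) K hR₁
  have hA2 := modelArea_nonneg (n := n) K hR₂
  have hfinal : ENNReal.ofReal (modelArea n K R₁ + modelArea n K R₂) ≤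
      ENNReal.ofReal (P + δ + 2 * D * ((riemVol M (S ∩ (Y \ X))).toReal + δ)) := by
    rw [ENNReal.ofReal_add hA1 hA2, ENNReal.ofReal_add (by positivity) (by positivity),
      ENNReal.ofReal_mul (by positivity), ENNReal.ofReal_add ENNReal.toReal_nonneg hδ.le,
      ENNReal.ofReal_toReal hVfin]
    exact (add_le_add k1 k2).trans (hsum.trans (add_le_add hg le_rfl))
  exact (ENNReal.ofReal_le_ofReal_iff (by positivity)).1 hfinal

/-- The volume of the plateau. -/
theorem vol_plateau (M : RiemMetric n) {S : Set (E n)} (hS : MeasurableSet S) {δ : ℝ} (hδ : 0 < δ)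
    {h : E n → ℝ} (hh : Continuous h) (h0 : ∀ x, 0 ≤ h x) (h1 : ∀ x, h x ≤ 1)
    (hd : ∫⁻ x, ENNReal.ofReal (|h x - S.indicator (fun _ => (1 : ℝ)) x| * volDensity M x) ∂leb n
      ≤ ENNReal.ofReal δ) (hm : riemVol M {x | 0 < h x ∧ h x < 1} ≤ ENNReal.ofReal δ)
    {X : Set (E n)} (hX : MeasurableSet X) :
    riemVol M (S ∩ X) ≤ riemVol M ({x | h x = 1} ∩ X) + ENNReal.ofReal (2 * δ) := by
  have m1 : MeasurableSet {x | h x = 1} := (isClosed_eq hh continuous_const).measurableSet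
  have m0 : MeasurableSet {x | h x = 0} := (isClosed_eq hh continuous_const).measurableSet
  have mm : MeasurableSet {x | 0 < h x ∧ h x < 1} :=
    (isOpen_lt continuous_const hh).measurableSet.inter (isOpen_lt hh continuous_const).measurableSet
  have hmd : Measurable fun x => |h x - S.indicator (fun _ => (1 : ℝ)) x| :=
    (hh.measurable.sub (measurable_const.indicator hS)).abs
  have hd' : ∫⁻ x, ENNReal.ofReal |h x - S.indicator (fun _ => (1 : ℝ)) x| ∂muG M ≤
      ENNReal.ofReal δ := by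
    rw [lintegral_muG M hmd.ennreal_ofReal]
    refine le_trans (le_of_eq (lintegral_congr fun x => ?_)) hd
    rw [ENNReal.ofReal_mul (abs_nonneg _)]
  have hz : muG M (S ∩ {x | h x = 0}) ≤ ENNReal.ofReal δ := by
    refine le_trans ?_ hd'
    rw [← setLIntegral_one, ← lintegral_indicator (hS.inter m0)]
    refine lintegral_mono fun x => ?_
    by_cases hx : x ∈ S ∩ {x | h x = 0}
    · have hx0 : h x = 0 := hx.2
      rw [indicator_of_mem hx, indicator_of_mem hx.1, hx0, zero_sub, abs_neg, abs_one,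
        ENNReal.ofReal_one]
    · rw [indicator_of_notMem hx]
      exact bot_le
  have hsub : S ∩ X ⊆ ({x | h x = 1} ∩ X) ∪ ({x | 0 < h x ∧ h x < 1} ∪ (S ∩ {x | h x = 0})) := by
    rintro x ⟨hxS, hxX⟩
    rcases (h1 x).eq_or_lt with e1 | e1
    · exact Or.inl ⟨e1, hxX⟩
    · rcases (h0 x).eq_or_lt with e0 | e0
      · exact Or.inr (Or.inr ⟨hxS, e0.symm⟩)
      · exact Or.inr (Or.inl ⟨e0, e1⟩)
  rw [← muG_apply M (hS.inter hX), ← muG_apply M (m1.inter hX)]
  rw [← muG_apply M mm] at hm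
  refine (measure_mono hsub).trans ((measure_union_le _ _).trans (add_le_add le_rfl ?_))
  refine (measure_union_le _ _).trans ((add_le_add hm hz).trans (le_of_eq ?_))
  rw [← ENNReal.ofReal_add hδ.le hδ.le, two_mul]

/-- The smooth transition function. -/
theorem exists_psi : ∃ (ψ : ℝ → ℝ) (C : ℝ), ContDiff ℝ ∞ ψ ∧ (∀ s, 0 ≤ ψ s) ∧ (∀ s, ψ s ≤ 1) ∧
    (∀ s, s ≤ 0 → ψ s = 0) ∧ (∀ s, 1 ≤ s → ψ s = 1) ∧ 0 < C ∧ (∀ s, |deriv ψ s| ≤ C) ∧
    (∀ s, s ≤ 0 → deriv ψ s = 0) ∧ ∀ s, 1 ≤ s → deriv ψ s = 0 := by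
  have hn0 : ∀ s, 0 ≤ Real.smoothTransition s := Real.smoothTransition.nonneg
  have hn1 : ∀ s, Real.smoothTransition s ≤ 1 := Real.smoothTransition.le_one
  have z0 : ∀ s, s ≤ 0 → Real.smoothTransition s = 0 := fun s hs =>
    Real.smoothTransition.zero_of_nonpos hs
  have z1 : ∀ s, 1 ≤ s → Real.smoothTransition s = 1 := fun s hs =>
    Real.smoothTransition.one_of_one_le hs
  have hsm : ContDiff ℝ ∞ Real.smoothTransition := Real.smoothTransition.contDiff
  have d0 : ∀ s, s ≤ 0 → deriv Real.smoothTransition s = 0 := fun s hs => by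
    refine IsLocalMin.deriv_eq_zero (Eventually.of_forall fun y => ?_)
    rw [z0 s hs]
    exact hn0 y
  have d1 : ∀ s, 1 ≤ s → deriv Real.smoothTransition s = 0 := fun s hs => by
    refine IsLocalMax.deriv_eq_zero (Eventually.of_forall fun y => ?_)
    rw [z1 s hs]
    exact hn1 y
  have hc : Continuous (deriv Real.smoothTransition) := hsm.continuous_deriv (by simp)
  obtain ⟨C, hC⟩ : ∃ C, ∀ s, ‖deriv Real.smoothTransition s‖ ≤ C := by
    refine Continuous.bounded_above_of_compact_support hc ?_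
    refine HasCompactSupport.intro (isCompact_Icc (a := (0 : ℝ)) (b := 1)) fun s hs => ?_
    rw [mem_Icc, not_and_or, not_le, not_le] at hs
    rcases hs with hs | hs
    · exact d0 s hs.le
    · exact d1 s hs.le
  refine ⟨Real.smoothTransition, max C 1, hsm, hn0, hn1, z0, z1, lt_max_of_lt_right one_pos,
    fun s => (hC s).trans (le_max_left _ _), d0, d1⟩

/-- The cutoff function of an annulus. -/
theorem exists_chi (M : RiemMetric n) {Fo : E n → ℝ} (hFs : ContDiff ℝ ∞ Fo)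
    (hF0 : ∀ x, 0 ≤ Fo x) (hFg : ∀ x, gradNorm M Fo x = √(2 * Fo x)) {ψ : ℝ → ℝ} {C : ℝ}
    (hψ : ContDiff ℝ ∞ ψ) (ψ0 : ∀ s, 0 ≤ ψ s) (ψ1 : ∀ s, ψ s ≤ 1) (z0 : ∀ s, s ≤ 0 → ψ s = 0)
    (z1 : ∀ s, 1 ≤ s → ψ s = 1) (hC : 0 < C) (hd : ∀ s, |deriv ψ s| ≤ C)
    (d0 : ∀ s, s ≤ 0 → deriv ψ s = 0) (d1 : ∀ s, 1 ≤ s → deriv ψ s = 0) {t ε : ℝ} (ht : 1 ≤ t)
    (hε : 0 < ε) : ∃ χ : E n → ℝ, ContDiff ℝ ∞ χ ∧ (∀ x, 0 ≤ χ x) ∧ (∀ x, χ x ≤ 1) ∧
      (∀ x, √(2 * Fo x) ≤ t → χ x = 1) ∧ (∀ x, ¬ √(2 * Fo x) ≤ t + ε → χ x = 0) ∧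
      (∀ x, gradNorm M χ x ≤ 2 * C / ε) ∧
      ∀ x, (√(2 * Fo x) ≤ t ∨ ¬ √(2 * Fo x) ≤ t + ε) → gradNorm M χ x = 0 := by
  set a : ℝ := t ^ 2 / 2 with ha
  set b : ℝ := (t + ε) ^ 2 / 2 with hb
  have hba : b - a = ε * (2 * t + ε) / 2 := by rw [ha, hb]; ring
  have hba0 : 0 < b - a := by rw [hba]; positivity
  have s1 : ∀ x, √(2 * Fo x) ≤ t → 1 ≤ (b - Fo x) / (b - a) := by
    intro x hx
    rw [le_div_iff₀ hba0]
    have h1 : 2 * Fo x ≤ t ^ 2 := by
      rw [← Real.sq_sqrt (by linarith [hF0 x] : (0 : ℝ) ≤ 2 * Fo x)]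
      exact pow_le_pow_left₀ (Real.sqrt_nonneg _) hx 2
    rw [ha]
    linarith
  have s0 : ∀ x, ¬ √(2 * Fo x) ≤ t + ε → (b - Fo x) / (b - a) ≤ 0 := by
    intro x hx
    have h1 : (t + ε) ^ 2 ≤ 2 * Fo x := by
      rw [← Real.sq_sqrt (by linarith [hF0 x] : (0 : ℝ) ≤ 2 * Fo x)]
      exact pow_le_pow_left₀ (by linarith) (not_le.1 hx).le 2
    refine div_nonpos_of_nonpos_of_nonneg ?_ hba0.le
    rw [hb]
    linarith
  have hder : ∀ x, HasDerivAt (fun u => ψ ((b - u) / (b - a)))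
      (deriv ψ ((b - Fo x) / (b - a)) * (-1 / (b - a))) (Fo x) := by
    intro x
    have h1 : HasDerivAt (fun u : ℝ => (b - u) / (b - a)) (-1 / (b - a)) (Fo x) :=
      ((hasDerivAt_id (Fo x)).const_sub b).div_const _
    exact ((hψ.differentiable (by simp) _).hasDerivAt).comp (Fo x) h1
  have hgn : ∀ x, gradNorm M (fun y => ψ ((b - Fo y) / (b - a))) x =
      |deriv ψ ((b - Fo x) / (b - a))| * (1 / (b - a)) * √(2 * Fo x) := by
    intro x
    rw [gradNorm_comp M ((hFs.differentiable (by simp)) x) (hder x), hFg, abs_mul]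
    congr 2
    rw [abs_div, abs_neg, abs_one, abs_of_pos hba0]
  refine ⟨fun y => ψ ((b - Fo y) / (b - a)), hψ.comp ((contDiff_const.sub hFs).div_const _),
    fun x => ψ0 _, fun x => ψ1 _, fun x hx => z1 _ (s1 x hx), fun x hx => z0 _ (s0 x hx),
    fun x => ?_, fun x hx => ?_⟩
  · rw [hgn]
    by_cases hx : √(2 * Fo x) ≤ t + ε
    · calc |deriv ψ ((b - Fo x) / (b - a))| * (1 / (b - a)) * √(2 * Fo x)
          ≤ C * (1 / (b - a)) * (t + ε) := by
            gcongr
            exact hd _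
        _ ≤ 2 * C / ε := by
            rw [hba, mul_one_div, div_mul_eq_mul_div, div_le_div_iff₀ (by positivity) hε]
            have : 0 ≤ C * ε * t := by positivity
            nlinarith
    · rw [d0 _ (s0 x hx), abs_zero, zero_mul, zero_mul]
      positivity
  · rw [hgn]
    rcases hx with hx | hx
    · rw [d1 _ (s1 x hx), abs_zero, zero_mul, zero_mul]
    · rw [d0 _ (s0 x hx), abs_zero, zero_mul, zero_mul]

/-- Radii slightly smaller. -/
theorem smaller (hn : 1 ≤ n) (K : ℝ) {R θ : ℝ} (hR : 0 ≤ R) (hθ0 : 0 < θ) (hθ : θ < 1) :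
    ∃ η : ℝ, 0 < η ∧ ∀ δ : ℝ, 0 < δ → δ ≤ η → ∀ V : ℝ≥0∞,
      ENNReal.ofReal (modelVol n K R) ≤ V + ENNReal.ofReal (2 * δ) →
        ENNReal.ofReal (modelVol n K (θ * R)) ≤ V := by
  rcases hR.eq_or_lt with h | h
  · refine ⟨1, one_pos, fun δ _ _ V _ => ?_⟩
    rw [← h, mul_zero, modelVol_zero, ENNReal.ofReal_zero]
    exact bot_le
  · have h1 : θ * R < R := by nlinarith
    have h2 : 0 ≤ θ * R := by positivity
    have hlt := modelVol_co_strictMono hn K (mem_Ici.2 h2) (mem_Ici.2 hR) h1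
    have hV0 : 0 ≤ modelVol n K (θ * R) := by
      rw [← modelVol_zero (n := n) K]
      exact modelVol_mono K hn le_rfl h2
    refine ⟨(modelVol n K R - modelVol n K (θ * R)) / 2, by linarith, fun δ hδ hδη V hV => ?_⟩
    have h3 : ENNReal.ofReal (modelVol n K (θ * R)) + ENNReal.ofReal (2 * δ) ≤
        V + ENNReal.ofReal (2 * δ) := by
      refine le_trans ?_ hV
      rw [← ENNReal.ofReal_add hV0 (by linarith)]
      exact ENNReal.ofReal_le_ofReal (by linarith)
    exact (ENNReal.add_le_add_iff_right ENNReal.ofReal_ne_top).1 h3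

end Cut

theorem cut_ineq {n : ℕ} (hn : 2 ≤ n) {K : ℝ} (hK : K ≤ 0) (M : RiemMetric n)
    (hM : GeodesicallyComplete M) (hs : SecLE M K) {S : Set (E n)} (hS : MeasurableSet S) {r : ℝ}
    (hr : 0 < r) (hV : riemVol M S = ENNReal.ofReal (modelVol n K r))
    (hP : perimeter M S ≤ ENNReal.ofReal (modelArea n K r)) :
    ∃ (C : ℝ) (B : ℝ → Set (E n)), 0 < C ∧ (∀ t, IsCompact (B t)) ∧ Monotone B ∧
      (⋃ t, B t) = Set.univ ∧
      ∀ t ε R₁ R₂ : ℝ, 1 ≤ t → 0 < ε → ε ≤ 1 → 0 ≤ R₁ → 0 ≤ R₂ →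
        ENNReal.ofReal (modelVol n K R₁) ≤ riemVol M (S ∩ B t) →
        ENNReal.ofReal (modelVol n K R₂) ≤ riemVol M (S \ B (t + ε)) →
        modelArea n K R₁ + modelArea n K R₂ ≤
          modelArea n K r + C / ε * (riemVol M (S ∩ (B (t + ε) \ B t))).toReal := by
  obtain ⟨Fo, A, hFs, hF0, hFc, hFg, hA⟩ := Cut.exists_geo hK M hM hs
  obtain ⟨ψ, C, hψ, ψ0, ψ1, z0, z1, hC, hd, d0, d1⟩ := Cut.exists_psi
  have hn1 : 1 ≤ n := by omega
  have hfin : riemVol M S ≠ ⊤ := by rw [hV]; exact ENNReal.ofReal_ne_top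
  have hPfin : perimeter M S ≠ ⊤ := ne_top_of_le_ne_top ENNReal.ofReal_ne_top hP
  have hP0 : 0 ≤ modelArea n K r := modelArea_nonneg K hr.le
  refine ⟨4 * C, fun t => {x | √(2 * Fo x) ≤ t}, by positivity, hFc, fun s t hst x hx =>
    le_trans (show √(2 * Fo x) ≤ s from hx) hst, ?_, ?_⟩
  · rw [eq_univ_iff_forall]
    intro x
    exact mem_iUnion.2 ⟨√(2 * Fo x), show √(2 * Fo x) ≤ √(2 * Fo x) from le_rfl⟩
  intro t ε R₁ R₂ ht hε hε1 hR₁ hR₂ hV₁ hV₂
  set X : Set (E n) := {x | √(2 * Fo x) ≤ t} with hX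
  set Y : Set (E n) := {x | √(2 * Fo x) ≤ t + ε} with hY
  have hXm : MeasurableSet X := (hFc t).isClosed.measurableSet
  have hYm : MeasurableSet Y := (hFc (t + ε)).isClosed.measurableSet
  have hXY : X ⊆ Y := fun x hx => le_trans (show √(2 * Fo x) ≤ t from hx) (by linarith)
  obtain ⟨χ, hχ, χ0, χ1, χX, χY, χg, χg0⟩ :=
    Cut.exists_chi M hFs hF0 hFg hψ ψ0 ψ1 z0 z1 hC hd d0 d1 ht hε
  set V : ℝ := (riemVol M (S ∩ (Y \ X))).toReal with hVdef
  have hV0 : 0 ≤ V := ENNReal.toReal_nonneg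
  have key : ∀ θ : ℝ, 0 < θ → θ < 1 →
      modelArea n K (θ * R₁) + modelArea n K (θ * R₂) ≤ modelArea n K r + 4 * C / ε * V := by
    intro θ hθ0 hθ1
    obtain ⟨η₁, hη₁, k1⟩ := Cut.smaller hn1 K hR₁ hθ0 hθ1
    obtain ⟨η₂, hη₂, k2⟩ := Cut.smaller hn1 K hR₂ hθ0 hθ1
    have hstep : ∀ δ : ℝ, 0 < δ → δ ≤ min η₁ η₂ →
        modelArea n K (θ * R₁) + modelArea n K (θ * R₂) ≤
          modelArea n K r + δ + 2 * (2 * C / ε) * (V + δ) := by
      intro δ hδ hδη
      have happ : ∀ δ : ℝ, 0 < δ → ∃ f : E n → ℝ, ContDiff ℝ 1 f ∧ HasCompactSupport f ∧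
          ∫⁻ x, ENNReal.ofReal (|f x - S.indicator (fun _ => (1 : ℝ)) x| * volDensity M x) ∂leb n
            ≤ ENNReal.ofReal δ ∧ gradMass M f ≤ ENNReal.ofReal (modelArea n K r + δ) := by
        intro δ hδ
        obtain ⟨f, f1, f2, f3, f4⟩ := perimeter_approx hK M hM hs
          (fun u L h1 h2 h3 h4 => mollify h1 h2 h3 h4) hS hfin hPfin hδ
        refine ⟨f, f1, f2, f3, f4.trans ?_⟩
        rw [ENNReal.ofReal_add hP0 hδ.le]
        exact add_le_add hP le_rfl
      obtain ⟨h, hh, h0, h1, hc, hg, hdd, hm⟩ := Cut.exists_plateau_cs M hS hP0 happ hδ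
      have v1 := Cut.vol_plateau M hS hδ hh.continuous h0 h1 hdd hm hXm
      have v2 := Cut.vol_plateau M hS hδ hh.continuous h0 h1 hdd hm hYm.compl
      refine Cut.step hn hK M hM hs hA hS hfin hP0 hδ hh h0 h1 hc hg hdd (hχ.of_le (by simp)) χ0 χ1
        hXm hYm χX χY (by positivity) χg (fun x hx => ?_) (by positivity) (by positivity)
        (k1 δ hδ (hδη.trans (min_le_left _ _)) _ (hV₁.trans v1))
        (k2 δ hδ (hδη.trans (min_le_right _ _)) _ (hV₂.trans v2))
      refine χg0 x ?_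
      by_cases h2 : x ∈ X
      · exact Or.inl h2
      · exact Or.inr fun h3 => hx ⟨h3, h2⟩
    have hlim : Tendsto (fun δ : ℝ => modelArea n K r + δ + 2 * (2 * C / ε) * (V + δ)) (𝓝[>] 0)
        (𝓝 (modelArea n K r + 0 + 2 * (2 * C / ε) * (V + 0))) := by
      refine Tendsto.mono_left ?_ nhdsWithin_le_nhds
      exact Continuous.tendsto (by fun_prop) 0
    have h2 : modelArea n K (θ * R₁) + modelArea n K (θ * R₂) ≤
        modelArea n K r + 0 + 2 * (2 * C / ε) * (V + 0) := by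
      refine ge_of_tendsto hlim ?_
      filter_upwards [Ioc_mem_nhdsGT (lt_min hη₁ hη₂)] with δ hδ
      exact hstep δ hδ.1 hδ.2
    have h3 : modelArea n K r + 0 + 2 * (2 * C / ε) * (V + 0) =
        modelArea n K r + 4 * C / ε * V := by ring
    linarith
  have hcont := modelArea_co_cont (n := n) K
  have hlim : Tendsto (fun θ : ℝ => modelArea n K (θ * R₁) + modelArea n K (θ * R₂)) (𝓝[<] 1)
      (𝓝 (modelArea n K (1 * R₁) + modelArea n K (1 * R₂))) := by
    refine Tendsto.mono_left ?_ nhdsWithin_le_nhds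
    exact Continuous.tendsto (by fun_prop) 1
  rw [one_mul, one_mul] at hlim
  refine le_of_tendsto hlim ?_
  filter_upwards [Ioo_mem_nhdsLT (show (0 : ℝ) < 1 by norm_num)] with θ hθ
  exact key θ hθ.1 hθ.2

end Vale.Agent.P219.Co
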