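import Vale.Agent.P219.Bdl.B1

/-! # Lower bound in the coarea formula near a regular level set -/

open MeasureTheory Set Filter Topology Module
open scoped ENNReal NNReal ContDiff

namespace Vale.Agent.P219.Coarea

variable {V : Type*} [NormedAddCommGroup V] [InnerProductSpace ℝ V] [FiniteDimensional ℝ V]
  [MeasurableSpace V] [BorelSpace V]

theorem one_dim_ge {s s' : ℝ → ℝ} (hs : ∀ t, HasDerivAt s (s' t) t) (hs' : Continuous s')
    {α β b ε : ℝ} (hαβ : α ≤ β) (hb : 0 < b) (hε : 0 < ε) (hsb : ∀ t ∈ Icc α β, s' t ≤ b)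
    (hα : s α ≤ -ε) (hβ : 0 ≤ s β) :
    1 / b ≤ ∫ t in α..β, ε⁻¹ * chi' (-s t / ε) := by
  have hsc : Continuous s := continuous_iff_continuousAt.2 fun t => (hs t).continuousAt
  have key : ∫ t in α..β, chi' (-s t / ε) * (-s' t / ε) =
      Real.smoothTransition (-s β / ε) - Real.smoothTransition (-s α / ε) := by
    apply intervalIntegral.integral_eq_sub_of_hasDerivAt
    · intro t _
      exact (hasDerivAt_chi _).comp t ((hs t).neg.div_const ε)
    · apply Continuous.intervalIntegrable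
      exact (continuous_chi'.comp (by fun_prop)).mul (by fun_prop)
  have h1 : ∫ t in α..β, -(chi' (-s t / ε) * (-s' t / ε)) ≤
      ∫ t in α..β, b * (ε⁻¹ * chi' (-s t / ε)) := by
    apply intervalIntegral.integral_mono_on hαβ
    · apply Continuous.intervalIntegrable
      exact ((continuous_chi'.comp (by fun_prop)).mul (by fun_prop)).neg
    · apply Continuous.intervalIntegrable
      exact continuous_const.mul (continuous_const.mul (continuous_chi'.comp (by fun_prop)))
    · intro t ht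
      have h2 := hsb t ht
      have h3 : 0 ≤ ε⁻¹ * chi' (-s t / ε) := mul_nonneg (inv_nonneg.2 hε.le) (chi'_nonneg _)
      calc -(chi' (-s t / ε) * (-s' t / ε)) = s' t * (ε⁻¹ * chi' (-s t / ε)) := by field_simp
        _ ≤ b * (ε⁻¹ * chi' (-s t / ε)) := mul_le_mul_of_nonneg_right h2 h3
  rw [intervalIntegral.integral_neg, key, intervalIntegral.integral_const_mul] at h1
  rw [div_le_iff₀' hb]
  have h4 : Real.smoothTransition (-s α / ε) = 1 := by
    apply Real.smoothTransition.one_of_one_le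
    rw [le_div_iff₀ hε]
    linarith
  have h5 : Real.smoothTransition (-s β / ε) = 0 := by
    apply Real.smoothTransition.zero_of_nonpos
    exact div_nonpos_of_nonpos_of_nonneg (by linarith) hε.le
  linarith

omit [FiniteDimensional ℝ V] [MeasurableSpace V] [BorelSpace V] in
theorem norm_bound {D : V →L[ℝ] ℝ} {ν w : V} (hν : ‖ν‖ = 1) (hw : inner ℝ ν w = 0) :
    D ν ^ 2 * ‖w‖ ^ 2 + D w ^ 2 ≤ ‖D‖ ^ 2 * ‖w‖ ^ 2 := by
  set Q := D ν ^ 2 * ‖w‖ ^ 2 + D w ^ 2 with hQ
  have hQ0 : 0 ≤ Q := by positivity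
  have h1 : D ((D ν * ‖w‖ ^ 2) • ν + D w • w) = Q := by
    rw [map_add, map_smul, map_smul, smul_eq_mul, smul_eq_mul, hQ]; ring
  have h2 : ‖(D ν * ‖w‖ ^ 2) • ν + D w • w‖ ^ 2 = ‖w‖ ^ 2 * Q := by
    rw [norm_add_sq_real, inner_smul_left, inner_smul_right, hw, norm_smul, norm_smul, hν, hQ,
      mul_one, mul_pow, Real.norm_eq_abs, Real.norm_eq_abs, sq_abs, sq_abs]
    ring
  have h3 := D.le_opNorm ((D ν * ‖w‖ ^ 2) • ν + D w • w)
  rw [h1, Real.norm_eq_abs, abs_of_nonneg hQ0] at h3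
  have h4 : Q ^ 2 ≤ ‖D‖ ^ 2 * ‖w‖ ^ 2 * Q := by
    calc Q ^ 2 ≤ (‖D‖ * ‖(D ν * ‖w‖ ^ 2) • ν + D w • w‖) ^ 2 := pow_le_pow_left₀ hQ0 h3 2
      _ = ‖D‖ ^ 2 * ‖w‖ ^ 2 * Q := by rw [mul_pow, h2]; ring
  rcases hQ0.eq_or_lt with h | h
  · rw [← h]; positivity
  · rw [sq] at h4
    exact le_of_mul_le_mul_right h4 h

omit [FiniteDimensional ℝ V] [MeasurableSpace V] [BorelSpace V] in
theorem lip_aux {D : V →L[ℝ] ℝ} {ν w : V} {t a c : ℝ} (hν : ‖ν‖ = 1) (hw : inner ℝ ν w = 0)
    (ha : 0 < a) (hc : 0 ≤ c) (h1 : a ≤ D ν) (h2 : ‖D‖ ≤ c * a) (h0 : D (t • ν + w) = 0) :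
    ‖t • ν + w‖ ≤ c * ‖w‖ := by
  have h3 := norm_bound (D := D) hν hw
  have h4 : ‖t • ν + w‖ ^ 2 = t ^ 2 + ‖w‖ ^ 2 := by
    rw [norm_add_sq_real, inner_smul_left, hw, norm_smul, hν, mul_one, Real.norm_eq_abs, sq_abs]
    ring
  have h5 : D w = -(t * D ν) := by
    rw [map_add, map_smul, smul_eq_mul] at h0; linarith
  have h6 : D ν ^ 2 * ‖t • ν + w‖ ^ 2 ≤ ‖D‖ ^ 2 * ‖w‖ ^ 2 := by
    rw [h4]
    rw [h5] at h3
    nlinarith [h3]
  have h7 : a ^ 2 * ‖t • ν + w‖ ^ 2 ≤ (c * a) ^ 2 * ‖w‖ ^ 2 := by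
    calc a ^ 2 * ‖t • ν + w‖ ^ 2 ≤ D ν ^ 2 * ‖t • ν + w‖ ^ 2 := by gcongr
      _ ≤ ‖D‖ ^ 2 * ‖w‖ ^ 2 := h6
      _ ≤ (c * a) ^ 2 * ‖w‖ ^ 2 := by gcongr
  have h8 : ‖t • ν + w‖ ^ 2 ≤ (c * ‖w‖) ^ 2 := by
    have : a ^ 2 * ‖t • ν + w‖ ^ 2 ≤ a ^ 2 * (c * ‖w‖) ^ 2 := by
      calc _ ≤ _ := h7
        _ = _ := by ring
    exact le_of_mul_le_mul_left this (by positivity)
  exact le_of_sq_le_sq h8 (by positivity)


theorem local_lower (ρ : V → ℝ) (hρ : ContDiff ℝ 1 ρ) (p : V) (hp : ρ p = 0)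
    (hdp : fderiv ℝ ρ p ≠ 0) (δ : ℝ) (hδ : 0 < δ) :
    ∃ U : Set V, IsOpen U ∧ p ∈ U ∧ ∀ φ : V → ℝ, Continuous φ → (∀ x, 0 ≤ φ x) →
      HasCompactSupport φ → tsupport φ ⊆ U → ∀ η > 0, ∀ᶠ ε in 𝓝[>] (0 : ℝ),
      (∫⁻ x in {x | ρ x = 0},
          ENNReal.ofReal (φ x / ‖fderiv ℝ ρ x‖) ∂(μHE[finrank ℝ V - 1] : Measure V)) ≤
        ENNReal.ofReal ((1 + δ) ^ finrank ℝ V) *
          (∫⁻ x, ENNReal.ofReal (ε⁻¹ * chi' (-ρ x / ε) * φ x)) + ENNReal.ofReal η := by
  obtain ⟨ν, hν, hνG⟩ := exists_unit hdp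
  set G := ‖fderiv ℝ ρ p‖ with hG
  have hG0 : 0 < G := norm_pos_iff.2 hdp
  have hcont : Continuous (fderiv ℝ ρ) := hρ.continuous_fderiv one_ne_zero
  -- choose a
  obtain ⟨a, ha1, ha2⟩ : ∃ a, G / (1 + δ) < a ∧ a < G :=
    exists_between (by rw [div_lt_iff₀ (by linarith)]; linarith only [mul_pos (sub_pos.2 hδ) (sub_pos.2 hG0)])
  have ha : 0 < a := lt_trans (by positivity) ha1
  have haG : G < (1 + δ) * a := by
    rw [div_lt_iff₀ (by linarith)] at ha1; linarith
  set b : ℝ := (1 + δ) * a with hb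
  have hb0 : 0 < b := by positivity
  have hWo : IsOpen {x | a < fderiv ℝ ρ x ν ∧ ‖fderiv ℝ ρ x‖ < b} := by
    exact (isOpen_lt continuous_const (hcont.clm_apply continuous_const)).inter
      (isOpen_lt hcont.norm continuous_const)
  have hpW : p ∈ {x | a < fderiv ℝ ρ x ν ∧ ‖fderiv ℝ ρ x‖ < b} := ⟨by rw [hνG]; exact ha2, haG⟩
  obtain ⟨R, hR, hball⟩ := Metric.isOpen_iff.1 hWo p hpW
  set r := R / 3 with hr
  have hr0 : 0 < r := by positivity
  -- points of the cylinder are in the ball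
  have hcyl : ∀ (t : ℝ) (y : Hyp ν), |t| ≤ r → ‖y‖ ≤ r →
      a < fderiv ℝ ρ (p + (t • ν + y)) ν ∧ ‖fderiv ℝ ρ (p + (t • ν + y))‖ < b := by
    intro t y ht hy
    apply hball
    rw [Metric.mem_ball, dist_eq_norm, add_sub_cancel_left]
    calc ‖t • ν + (y : V)‖ ≤ ‖t • ν‖ + ‖(y : V)‖ := norm_add_le _ _
      _ = |t| + ‖y‖ := by rw [norm_smul, hν, mul_one, Real.norm_eq_abs]; rfl
      _ ≤ r + r := add_le_add ht hy
      _ < R := by rw [hr]; linarith
  -- derivative along lines
  have hder : ∀ (y : V) (t : ℝ), HasDerivAt (fun t : ℝ => ρ (p + (t • ν + y)))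
      (fderiv ℝ ρ (p + (t • ν + y)) ν) t := by
    intro y t
    have h1 : HasDerivAt (fun t : ℝ => p + (t • ν + y)) ν t := by
      have := (((hasDerivAt_id t).smul_const ν).add_const y).const_add p
      simpa using this
    exact ((hρ.differentiable one_ne_zero _).hasFDerivAt).comp_hasDerivAt t h1
  have hdc : ∀ y : V, Continuous fun t : ℝ => fderiv ℝ ρ (p + (t • ν + y)) ν := by
    intro y
    exact (hcont.comp (by fun_prop : Continuous fun t : ℝ => p + (t • ν + y))).clm_apply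
      continuous_const
  have hmono : ∀ y : Hyp ν, ‖y‖ ≤ r → ∀ t₁ t₂ : ℝ, t₁ ∈ Icc (-r) r → t₂ ∈ Icc (-r) r → t₁ ≤ t₂ →
      a * (t₂ - t₁) ≤ ρ (p + (t₂ • ν + y)) - ρ (p + (t₁ • ν + y)) := by
    intro y hy t₁ t₂ h1 h2 h12
    apply (convex_Icc (-r) r).mul_sub_le_image_sub_of_le_deriv
      (f := fun t : ℝ => ρ (p + (t • ν + y))) _ _ _ t₁ h1 t₂ h2 h12
    · exact fun t _ => (hder y t).continuousAt.continuousWithinAt
    · exact fun t _ => (hder y t).differentiableAt.differentiableWithinAt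
    · intro t ht
      rw [(hder y t).deriv]
      have ht' : t ∈ Icc (-r) r := interior_subset ht
      exact (hcyl t y (abs_le.2 ht') hy).1.le
  -- signs at the ends
  have hend : ∃ r' > 0, r' ≤ r ∧ ∀ y : Hyp ν, ‖y‖ < r' →
      a * r / 2 < ρ (p + (r • ν + y)) ∧ ρ (p + ((-r) • ν + y)) < -(a * r / 2) := by
    have h0 : ρ (p + ((0 : ℝ) • ν + ((0 : Hyp ν) : V))) = 0 := by simp [hp]
    have h1 := hmono 0 (by simpa using hr0.le) 0 r ⟨by linarith, hr0.le⟩ ⟨by linarith, le_rfl⟩ hr0.le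
    have h2 := hmono 0 (by simpa using hr0.le) (-r) 0 ⟨le_rfl, by linarith⟩ ⟨by linarith, hr0.le⟩ (by linarith)
    rw [h0] at h1 h2
    have har : 0 < a * r := mul_pos ha hr0
    have h1' : a * r / 2 < ρ (p + (r • ν + ((0 : Hyp ν) : V))) := by linarith
    have h2' : ρ (p + ((-r) • ν + ((0 : Hyp ν) : V))) < -(a * r / 2) := by linarith
    have hc1 : Continuous fun y : Hyp ν => ρ (p + (r • ν + y)) :=
      hρ.continuous.comp (by fun_prop)
    have hc2 : Continuous fun y : Hyp ν => ρ (p + ((-r) • ν + y)) :=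
      hρ.continuous.comp (by fun_prop)
    have hev : ∀ᶠ y : Hyp ν in 𝓝 0, a * r / 2 < ρ (p + (r • ν + y)) ∧
        ρ (p + ((-r) • ν + y)) < -(a * r / 2) :=
      (hc1.continuousAt.eventually (lt_mem_nhds h1')).and
        (hc2.continuousAt.eventually (gt_mem_nhds h2'))
    obtain ⟨r', hr', hr'2⟩ := Metric.eventually_nhds_iff.1 hev
    refine ⟨min r' r, lt_min hr' hr0, min_le_right _ _, fun y hy => hr'2 ?_⟩
    rw [dist_zero_right]
    exact lt_of_lt_of_le hy (min_le_left _ _)
  obtain ⟨r', hr'0, hr'r, hsign⟩ := hend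
  have har : 0 < a * r / 2 := by positivity
  have hzero : ∀ y : Hyp ν, ∃ t : ℝ, ‖y‖ < r' → t ∈ Ioo (-r) r ∧ ρ (p + (t • ν + y)) = 0 := by
    intro y
    by_cases hy : ‖y‖ < r'
    · have hc : ContinuousOn (fun t : ℝ => ρ (p + (t • ν + y))) (Icc (-r) r) :=
        fun t _ => (hder y t).continuousAt.continuousWithinAt
      obtain ⟨t, ht, ht0⟩ := intermediate_value_Ioo (by linarith : -r ≤ r) hc
        ⟨(hsign y hy).2.trans (by linarith), har.trans (hsign y hy).1⟩
      exact ⟨t, fun _ => ⟨ht, ht0⟩⟩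
    · exact ⟨0, fun h => absurd h hy⟩
  choose τ hτ using hzero
  set P : V → Hyp ν := fun x => (Hyp ν).orthogonalProjectionOnto (x - p) with hP
  set U : Set V := {x | |inner ℝ ν (x - p)| < r ∧ ‖P x‖ < r'} with hU
  have hPc : Continuous P := by fun_prop
  have hUo : IsOpen U := by
    have h1 : Continuous fun x : V => |inner ℝ ν (x - p)| := by fun_prop
    exact (isOpen_lt h1 continuous_const).inter (isOpen_lt hPc.norm continuous_const)
  refine ⟨U, hUo, ?_, ?_⟩
  · simp [hU, hP, hr0, hr'0]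
  intro φ hφc hφ0 hφs hφU η hη
  -- the height function on U
  have hmemU : ∀ (t : ℝ) (y : Hyp ν), p + (t • ν + (y : V)) ∈ U ↔ |t| < r ∧ ‖y‖ < r' := by
    intro t y
    have h := proj_aux hν t y
    simp only [hU, hP, mem_ofPred_eq, add_sub_cancel_left, h.1, h.2]
  have huniq : ∀ (y : Hyp ν), ‖y‖ < r' → ∀ t : ℝ, |t| ≤ r → ρ (p + (t • ν + (y : V))) = 0 →
      t = τ y := by
    intro y hy t ht h0
    obtain ⟨hτ1, hτ2⟩ := hτ y hy
    have hτ1' : τ y ∈ Icc (-r) r := Ioo_subset_Icc_self hτ1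
    have ht' : t ∈ Icc (-r) r := abs_le.1 ht
    rcases le_total t (τ y) with h | h
    · have := hmono y (hy.le.trans hr'r) t (τ y) ht' hτ1' h
      rw [h0, hτ2] at this
      nlinarith
    · have := hmono y (hy.le.trans hr'r) (τ y) t hτ1' ht' h
      rw [h0, hτ2] at this
      nlinarith
  set q : Hyp ν → V := fun y => p + (τ y • ν + (y : V)) with hq
  set B : Set (Hyp ν) := Metric.ball 0 r' with hB
  have hBm : MeasurableSet B := Metric.isOpen_ball.measurableSet
  -- `q` is Lipschitz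
  have hLip : LipschitzOnWith (Real.toNNReal (1 + δ)) q B := by
    apply LipschitzOnWith.of_dist_le_mul
    intro y hy y' hy'
    have hy1 : ‖y‖ < r' := by simpa [hB] using hy
    have hy1' : ‖y'‖ < r' := by simpa [hB] using hy'
    obtain ⟨hτ1, hτ2⟩ := hτ y hy1
    obtain ⟨hτ1', hτ2'⟩ := hτ y' hy1'
    rw [Real.coe_toNNReal _ (by linarith), dist_eq_norm, dist_eq_norm]
    set T : ℝ → ℝ := fun s => s * τ y + (1 - s) * τ y' with hT
    set Y : ℝ → Hyp ν := fun s => s • y + (1 - s) • y' with hY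
    have hlin : ∀ s : ℝ, p + (T s • ν + (Y s : V)) = q y' + s • (q y - q y') := by
      intro s
      simp only [hT, hY, hq, Submodule.coe_add, Submodule.coe_smul]
      module
    have hd : ∀ s : ℝ, HasDerivAt (fun s => ρ (q y' + s • (q y - q y')))
        (fderiv ℝ ρ (q y' + s • (q y - q y')) (q y - q y')) s := by
      intro s
      have h1 : HasDerivAt (fun s : ℝ => q y' + s • (q y - q y')) (q y - q y') s := by
        have := ((hasDerivAt_id s).smul_const (q y - q y')).const_add (q y')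
        simpa using this
      exact ((hρ.differentiable one_ne_zero _).hasFDerivAt).comp_hasDerivAt s h1
    obtain ⟨s, hs, hs0⟩ := exists_hasDerivAt_eq_zero (f := fun s => ρ (q y' + s • (q y - q y')))
      (f' := fun s => fderiv ℝ ρ (q y' + s • (q y - q y')) (q y - q y')) zero_lt_one
      (fun s _ => (hd s).continuousAt.continuousWithinAt)
      (by simp only [zero_smul, add_zero, one_smul, add_sub_cancel]; rw [hτ2', hτ2])
      (fun s _ => hd s)
    have hT1 : |T s| ≤ r := by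
      have := convex_Icc (-r) r (Ioo_subset_Icc_self hτ1) (Ioo_subset_Icc_self hτ1') hs.1.le
        (sub_nonneg.2 hs.2.le) (by ring)
      exact abs_le.2 this
    have hY1 : ‖Y s‖ ≤ r := by
      have := convex_closedBall (0 : Hyp ν) r (x := y) (by simpa using hy1.le.trans hr'r)
        (y := y') (by simpa using hy1'.le.trans hr'r) hs.1.le (sub_nonneg.2 hs.2.le) (by ring)
      rw [mem_closedBall_zero_iff] at this
      exact this
    have h3 := hcyl (T s) (Y s) hT1 hY1
    rw [hlin s] at h3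
    have h4 : q y - q y' = (τ y - τ y') • ν + ((y - y' : Hyp ν) : V) := by
      simp only [hq, Submodule.coe_sub]
      module
    have h5 : inner ℝ ν ((y - y' : Hyp ν) : V) = 0 :=
      Submodule.mem_orthogonal_singleton_iff_inner_right.1 (y - y').2
    have hs1 : fderiv ℝ ρ (q y' + s • (q y - q y')) (q y - q y') = 0 := hs0
    rw [h4] at hs1 ⊢
    have h6 := lip_aux hν h5 ha (by linarith : (0 : ℝ) ≤ 1 + δ) (by rw [← h4]; exact h3.1.le)
      (by rw [← h4]; exact h3.2.le) hs1
    exact h6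
  have hqm : AEMeasurable q (volume.restrict B) := hLip.continuousOn.aemeasurable hBm
  set K : Set V := {x | ρ x = 0} with hK
  have hKc : IsClosed K := isClosed_eq hρ.continuous continuous_const
  have hKU : MeasurableSet (K ∩ U) := hKc.measurableSet.inter hUo.measurableSet
  have hqP : ∀ x ∈ K ∩ U, q (P x) = x := by
    intro x hx
    have hx2 := hx.2
    have hdec := decomp_aux hν (x - p)
    have hx' : x = p + (inner ℝ ν (x - p) • ν + (P x : V)) := by
      simp only [hP]; rw [hdec]; abel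
    have hx3 : |inner ℝ ν (x - p)| < r ∧ ‖P x‖ < r' := hx2
    have h0 : ρ (p + (inner ℝ ν (x - p) • ν + (P x : V))) = 0 := by
      rw [← hx']; exact hx.1
    have := huniq (P x) hx3.2 _ hx3.1.le h0
    simp only [hq]
    rw [← this]
    exact hx'.symm
  have hfr : finrank ℝ (Hyp ν) = finrank ℝ V - 1 := by
    have h1 : finrank ℝ (ℝ ∙ ν) + finrank ℝ (Hyp ν) = finrank ℝ V :=
      (ℝ ∙ ν).finrank_add_finrank_orthogonal
    have h2 : finrank ℝ (ℝ ∙ ν) = 1 := finrank_span_singleton (by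
      intro h; rw [h, norm_zero] at hν; exact one_ne_zero hν.symm)
    rw [h2] at h1
    omega
  have hN1 : finrank ℝ V = finrank ℝ V - 1 + 1 := by
    have h1 : finrank ℝ (ℝ ∙ ν) + finrank ℝ (Hyp ν) = finrank ℝ V :=
      (ℝ ∙ ν).finrank_add_finrank_orthogonal
    have h2 : finrank ℝ (ℝ ∙ ν) = 1 := finrank_span_singleton (by
      intro h; rw [h, norm_zero] at hν; exact one_ne_zero hν.symm)
    omega
  set m : ℕ := finrank ℝ V - 1 with hm
  have himage : ∀ S ⊆ B, (μHE[m] : Measure V) (q '' S) ≤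
      ENNReal.ofReal ((1 + δ) ^ m) * volume S := by
    intro S hS
    rw [← InnerProductSpace.euclideanHausdorffMeasure_eq_volume, hfr,
      Measure.euclideanHausdorffMeasure_def, Measure.euclideanHausdorffMeasure_def,
      Measure.smul_apply, Measure.smul_apply]
    have := (hLip.mono hS).hausdorffMeasure_image_le (d := (m : ℝ)) (by positivity)
    rw [ENNReal.rpow_natCast] at this
    rw [ENNReal.ofReal_pow (by linarith), mul_smul_comm]
    gcongr
    exact this
  have hmeas : (μHE[m] : Measure V).restrict (K ∩ U) ≤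
      ENNReal.ofReal ((1 + δ) ^ m) • (volume.restrict B : Measure (Hyp ν)).map q := by
    rw [Measure.le_iff]
    intro A hA
    rw [Measure.restrict_apply hA, Measure.smul_apply, Measure.map_apply_of_aemeasurable hqm hA,
      smul_eq_mul, Measure.restrict_apply' hBm]
    refine le_trans (measure_mono ?_) (himage _ inter_subset_right)
    rintro x ⟨hxA, hxK⟩
    refine ⟨P x, ⟨?_, ?_⟩, hqP x hxK⟩
    · rw [mem_preimage, hqP x hxK]; exact hxA
    · have hx3 : |inner ℝ ν (x - p)| < r ∧ ‖P x‖ < r' := hxK.2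
      simpa [hB] using hx3.2
  have hcomp : ∫⁻ x in K ∩ U, ENNReal.ofReal (φ x) ∂(μHE[m] : Measure V) ≤
      ENNReal.ofReal ((1 + δ) ^ m) * ∫⁻ y in B, ENNReal.ofReal (φ (q y)) := by
    calc ∫⁻ x in K ∩ U, ENNReal.ofReal (φ x) ∂(μHE[m] : Measure V)
        ≤ ∫⁻ x, ENNReal.ofReal (φ x) ∂(ENNReal.ofReal ((1 + δ) ^ m) •
            (volume.restrict B : Measure (Hyp ν)).map q) := lintegral_mono' hmeas le_rfl
      _ = ENNReal.ofReal ((1 + δ) ^ m) * ∫⁻ y in B, ENNReal.ofReal (φ (q y)) := by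
          rw [lintegral_smul_measure, smul_eq_mul, lintegral_map' (f := fun x => ENNReal.ofReal (φ x))
            (ENNReal.measurable_ofReal.comp hφc.measurable).aemeasurable hqm]
  -- error size
  set vB : ℝ := (volume B).toReal with hvB
  have hvB0 : 0 ≤ vB := ENNReal.toReal_nonneg
  have hL0 : 0 < (1 + δ) ^ m := by positivity
  set η₁ : ℝ := η * a / ((1 + δ) ^ m * (vB + 1)) with hη₁
  have hη₁0 : 0 < η₁ := by positivity
  have huc : UniformContinuous φ := hφs.uniformContinuous_of_continuous hφc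
  obtain ⟨d, hd, hdφ⟩ := Metric.uniformContinuous_iff.1 huc η₁ hη₁0
  have hev : ∀ᶠ ε in 𝓝[>] (0 : ℝ), (ε < a * d ∧ ε < a * r / 2) ∧ 0 < ε := by
    have h1 : ∀ᶠ ε in 𝓝[>] (0 : ℝ), ε < a * d :=
      (eventually_lt_nhds (by positivity)).filter_mono nhdsWithin_le_nhds
    have h2 : ∀ᶠ ε in 𝓝[>] (0 : ℝ), ε < a * r / 2 :=
      (eventually_lt_nhds har).filter_mono nhdsWithin_le_nhds
    exact (h1.and h2).and self_mem_nhdsWithin
  filter_upwards [hev] with ε hε
  obtain ⟨⟨hεd, hεr⟩, hε0⟩ := hε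
  -- inner estimate
  have hinner : ∀ y ∈ B, ENNReal.ofReal (φ (q y)) ≤ ENNReal.ofReal b * (∫⁻ t : ℝ,
      ENNReal.ofReal (ε⁻¹ * chi' (-ρ (p + (t • ν + (y : V))) / ε) *
        φ (p + (t • ν + (y : V))))) + ENNReal.ofReal η₁ := by
    intro y hyB
    have hy : ‖y‖ < r' := by simpa [hB] using hyB
    obtain ⟨hτ1, hτ2⟩ := hτ y hy
    have hτ1' : τ y ∈ Icc (-r) r := Ioo_subset_Icc_self hτ1
    set c : ℝ := max (φ (q y) - η₁) 0 with hc
    have hc0 : 0 ≤ c := le_max_right _ _
    have hpt : ∀ t : ℝ, (Icc (-r) r).indicator (fun t => ENNReal.ofReal (c *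
          (ε⁻¹ * chi' (-ρ (p + (t • ν + (y : V))) / ε)))) t ≤ ENNReal.ofReal (ε⁻¹ *
        chi' (-ρ (p + (t • ν + (y : V))) / ε) * φ (p + (t • ν + (y : V)))) := by
      intro t
      by_cases ht : t ∈ Icc (-r) r
      · rw [indicator_of_mem ht]
        apply ENNReal.ofReal_le_ofReal
        rw [mul_comm]
        have hchi : 0 ≤ ε⁻¹ * chi' (-ρ (p + (t • ν + (y : V))) / ε) :=
          mul_nonneg (inv_nonneg.2 hε0.le) (chi'_nonneg _)
        by_cases hz : chi' (-ρ (p + (t • ν + (y : V))) / ε) = 0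
        · simp [hz]
        · apply mul_le_mul_of_nonneg_left _ hchi
          have h1 : 0 ≤ -ρ (p + (t • ν + (y : V))) / ε := by
            by_contra h; exact hz (chi'_eq_zero_of_lt (not_le.1 h))
          have h2 : -ρ (p + (t • ν + (y : V))) / ε ≤ 1 := by
            by_contra h; exact hz (chi'_eq_zero_of_gt (not_le.1 h))
          have h3 : ρ (p + (t • ν + (y : V))) ≤ 0 := by
            have := mul_nonneg h1 hε0.le
            rw [div_mul_cancel₀ _ hε0.ne'] at this
            linarith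
          have h4 : -ε ≤ ρ (p + (t • ν + (y : V))) := by
            rw [div_le_one hε0] at h2; linarith
          have h5 : |t - τ y| < d := by
            rcases le_total t (τ y) with h | h
            · have := hmono y (hy.le.trans hr'r) t (τ y) ht hτ1' h
              rw [hτ2] at this
              rw [abs_of_nonpos (by linarith)]
              by_contra hcon
              have : a * d ≤ a * (τ y - t) := mul_le_mul_of_nonneg_left (by linarith) ha.le
              linarith
            · have := hmono y (hy.le.trans hr'r) (τ y) t hτ1' ht h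
              rw [hτ2] at this
              rw [abs_of_nonneg (by linarith)]
              by_contra hcon
              have : a * d ≤ a * (t - τ y) := mul_le_mul_of_nonneg_left (by linarith) ha.le
              linarith
          have h6 : dist (p + (t • ν + (y : V))) (q y) < d := by
            rw [hq, dist_eq_norm]
            have : p + (t • ν + (y : V)) - (p + (τ y • ν + (y : V))) = (t - τ y) • ν := by
              rw [sub_smul]; abel
            rw [this, norm_smul, hν, mul_one, Real.norm_eq_abs]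
            exact h5
          have h7 := hdφ h6
          rw [Real.dist_eq] at h7
          exact max_le (by linarith only [(abs_lt.1 h7).1]) (hφ0 _)
      · rw [indicator_of_notMem ht]
        exact zero_le
    have hI : ENNReal.ofReal (c * (1 / b)) ≤ ∫⁻ t : ℝ, ENNReal.ofReal (ε⁻¹ *
        chi' (-ρ (p + (t • ν + (y : V))) / ε) * φ (p + (t • ν + (y : V)))) := by
      calc ENNReal.ofReal (c * (1 / b))
          ≤ ENNReal.ofReal (∫ t in Icc (-r) r, c *
            (ε⁻¹ * chi' (-ρ (p + (t • ν + (y : V))) / ε))) := by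
            apply ENNReal.ofReal_le_ofReal
            rw [integral_const_mul]
            apply mul_le_mul_of_nonneg_left _ hc0
            rw [integral_Icc_eq_integral_Ioc, ← intervalIntegral.integral_of_le (by linarith only [hr'r, hr'0])]
            refine one_dim_ge (hder y) (hdc y) (by linarith) hb0 hε0
              (fun t ht => ?_) ?_ ?_
            · have h8 := (hcyl t y (abs_le.2 ht) (hy.le.trans hr'r)).2
              calc fderiv ℝ ρ (p + (t • ν + (y : V))) ν
                  ≤ ‖fderiv ℝ ρ (p + (t • ν + (y : V))) ν‖ := le_abs_self _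
                _ ≤ ‖fderiv ℝ ρ (p + (t • ν + (y : V)))‖ * ‖ν‖ := ContinuousLinearMap.le_opNorm _ _
                _ ≤ b := by rw [hν, mul_one]; exact h8.le
            · have := (hsign y hy).2
              linarith
            · exact (har.trans (hsign y hy).1).le
        _ = ∫⁻ t in Icc (-r) r, ENNReal.ofReal (c *
            (ε⁻¹ * chi' (-ρ (p + (t • ν + (y : V))) / ε))) := by
            rw [ofReal_integral_eq_lintegral_ofReal]
            · apply Continuous.integrableOn_Icc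
              have h1 : Continuous fun t : ℝ => ρ (p + (t • ν + (y : V))) :=
                hρ.continuous.comp (by fun_prop)
              exact continuous_const.mul (continuous_const.mul
                (continuous_chi'.comp (h1.neg.div_const ε)))
            · exact ae_of_all _ fun t => mul_nonneg hc0
                (mul_nonneg (inv_nonneg.2 hε0.le) (chi'_nonneg _))
        _ ≤ _ := by
            rw [← lintegral_indicator measurableSet_Icc]
            exact lintegral_mono hpt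
    calc ENNReal.ofReal (φ (q y)) ≤ ENNReal.ofReal (c + η₁) := by
          apply ENNReal.ofReal_le_ofReal
          have := le_max_left (φ (q y) - η₁) 0
          rw [← hc] at this
          linarith
      _ = ENNReal.ofReal b * ENNReal.ofReal (c * (1 / b)) + ENNReal.ofReal η₁ := by
          rw [← ENNReal.ofReal_mul hb0.le, ← ENNReal.ofReal_add (by positivity) hη₁0.le]
          congr 1
          field_simp
      _ ≤ _ := by gcongr
  have hGm : Measurable fun x : V => ENNReal.ofReal (ε⁻¹ * chi' (-ρ x / ε) * φ x) := by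
    apply ENNReal.measurable_ofReal.comp
    apply Continuous.measurable
    exact (continuous_const.mul (continuous_chi'.comp (hρ.continuous.neg.div_const ε))).mul hφc
  set I : ℝ≥0∞ := ∫⁻ x, ENNReal.ofReal (ε⁻¹ * chi' (-ρ x / ε) * φ x) with hI
  have hline : I = ∫⁻ y : Hyp ν, ∫⁻ t : ℝ, ENNReal.ofReal (ε⁻¹ *
      chi' (-ρ (p + (t • ν + (y : V))) / ε) * φ (p + (t • ν + (y : V)))) := by
    calc I = ∫⁻ x, ENNReal.ofReal (ε⁻¹ * chi' (-ρ (p + x) / ε) * φ (p + x)) :=
        (lintegral_add_left_eq_self (fun x => ENNReal.ofReal (ε⁻¹ * chi' (-ρ x / ε) * φ x)) p).symm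
      _ = _ := lintegral_line hν (fun x => ENNReal.ofReal (ε⁻¹ * chi' (-ρ (p + x) / ε) * φ (p + x)))
          (hGm.comp (measurable_const_add p))
  have hB1 : ∫⁻ y in B, ENNReal.ofReal (φ (q y)) ≤
      ENNReal.ofReal b * I + ENNReal.ofReal η₁ * volume B := by
    calc ∫⁻ y in B, ENNReal.ofReal (φ (q y))
        ≤ ∫⁻ y in B, (ENNReal.ofReal b * (∫⁻ t : ℝ,
          ENNReal.ofReal (ε⁻¹ * chi' (-ρ (p + (t • ν + (y : V))) / ε) *
            φ (p + (t • ν + (y : V))))) + ENNReal.ofReal η₁) := setLIntegral_mono' hBm hinner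
      _ = ENNReal.ofReal b * (∫⁻ y in B, ∫⁻ t : ℝ,
          ENNReal.ofReal (ε⁻¹ * chi' (-ρ (p + (t • ν + (y : V))) / ε) *
            φ (p + (t • ν + (y : V))))) + ENNReal.ofReal η₁ * volume B := by
          rw [lintegral_add_right _ measurable_const, lintegral_const_mul' _ _ ENNReal.ofReal_ne_top,
            lintegral_const, Measure.restrict_apply_univ]
      _ ≤ _ := by
          rw [hline]
          gcongr
          exact Measure.restrict_le_self
  have hKphi : ∫⁻ x in K, ENNReal.ofReal (φ x / ‖fderiv ℝ ρ x‖) ∂(μHE[m] : Measure V) =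
      ∫⁻ x in K ∩ U, ENNReal.ofReal (φ x / ‖fderiv ℝ ρ x‖) ∂(μHE[m] : Measure V) := by
    rw [← lintegral_indicator hKc.measurableSet, ← lintegral_indicator hKU]
    congr 1
    funext x
    by_cases hxK : x ∈ K
    · by_cases hxU : x ∈ U
      · rw [indicator_of_mem hxK, indicator_of_mem (s := K ∩ U) ⟨hxK, hxU⟩]
      · rw [indicator_of_mem hxK, indicator_of_notMem (fun h => hxU h.2)]
        have : φ x = 0 := by
          by_contra hne
          exact hxU (hφU (subset_tsupport φ hne))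
        simp [this]
    · rw [indicator_of_notMem hxK, indicator_of_notMem (fun h => hxK h.1)]
  have hvBt : volume B ≠ ⊤ := measure_ball_lt_top.ne
  rw [hKphi]
  calc ∫⁻ x in K ∩ U, ENNReal.ofReal (φ x / ‖fderiv ℝ ρ x‖) ∂(μHE[m] : Measure V)
      ≤ ∫⁻ x in K ∩ U, ENNReal.ofReal (1 / a) * ENNReal.ofReal (φ x) ∂(μHE[m] : Measure V) := by
        apply setLIntegral_mono' hKU
        intro x hx
        rw [← ENNReal.ofReal_mul (by positivity)]
        apply ENNReal.ofReal_le_ofReal
        have hx2 : |inner ℝ ν (x - p)| < r ∧ ‖P x‖ < r' := hx.2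
        have hx' : x = p + (inner ℝ ν (x - p) • ν + (P x : V)) := by
          simp only [hP]; rw [decomp_aux hν (x - p)]; abel
        have h1 := hcyl (inner ℝ ν (x - p)) (P x) hx2.1.le (hx2.2.le.trans hr'r)
        rw [← hx'] at h1
        have h2 : a ≤ ‖fderiv ℝ ρ x‖ := by
          calc a ≤ fderiv ℝ ρ x ν := h1.1.le
            _ ≤ ‖fderiv ℝ ρ x ν‖ := le_abs_self _
            _ ≤ ‖fderiv ℝ ρ x‖ * ‖ν‖ := ContinuousLinearMap.le_opNorm _ _
            _ = ‖fderiv ℝ ρ x‖ := by rw [hν, mul_one]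
        calc φ x / ‖fderiv ℝ ρ x‖ ≤ φ x / a := by
              apply div_le_div_of_nonneg_left (hφ0 x) ha h2
          _ = 1 / a * φ x := by ring
    _ = ENNReal.ofReal (1 / a) * ∫⁻ x in K ∩ U, ENNReal.ofReal (φ x) ∂(μHE[m] : Measure V) :=
        lintegral_const_mul' _ _ ENNReal.ofReal_ne_top
    _ ≤ ENNReal.ofReal (1 / a) * (ENNReal.ofReal ((1 + δ) ^ m) *
          (ENNReal.ofReal b * I + ENNReal.ofReal η₁ * volume B)) := by
        gcongr
        exact hcomp.trans (by gcongr)
    _ = ENNReal.ofReal ((1 + δ) ^ finrank ℝ V) * I +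
          ENNReal.ofReal (1 / a * ((1 + δ) ^ m * (η₁ * vB))) := by
        rw [← ENNReal.ofReal_toReal hvBt, ← hvB, mul_add, mul_add]
        congr 1
        · rw [← mul_assoc, ← mul_assoc, ← ENNReal.ofReal_mul (by positivity),
            ← ENNReal.ofReal_mul (by positivity)]
          congr 2
          rw [hN1, pow_succ, hb]
          field_simp
        · rw [← ENNReal.ofReal_mul hη₁0.le, ← ENNReal.ofReal_mul hL0.le,
            ← ENNReal.ofReal_mul (by positivity)]
    _ ≤ _ := by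
        gcongr
        have : 1 / a * ((1 + δ) ^ m * (η₁ * vB)) = η * (vB / (vB + 1)) := by
          rw [hη₁]; field_simp
        rw [this]
        have h5 : vB / (vB + 1) ≤ 1 := by rw [div_le_one (by positivity)]; linarith only []
        calc η * (vB / (vB + 1)) ≤ η * 1 := mul_le_mul_of_nonneg_left h5 hη.le
          _ = η := mul_one _


theorem coarea_lower (ρ : V → ℝ) (hρ : ContDiff ℝ 1 ρ) (hbdd : Bornology.IsBounded {x | ρ x < 0})
    (hreg : ∀ x, ρ x = 0 → fderiv ℝ ρ x ≠ 0) (h : V → ℝ) (hh : Continuous h)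
    (hh0 : ∀ x, 0 ≤ h x) (δ : ℝ) (hδ0 : 0 < δ) (η : ℝ) (hη : 0 < η) :
    ∀ᶠ ε in 𝓝[>] (0 : ℝ), (∫⁻ x in {x | ρ x = 0},
          ENNReal.ofReal (h x / ‖fderiv ℝ ρ x‖) ∂(μHE[finrank ℝ V - 1] : Measure V)) ≤
        ENNReal.ofReal ((1 + δ) ^ finrank ℝ V) *
          (∫⁻ x, ENNReal.ofReal (ε⁻¹ * chi' (-ρ x / ε) * h x)) + ENNReal.ofReal η := by
  set K : Set V := {x | ρ x = 0} with hK
  set Ω : Set V := {x | ρ x < 0} with hΩ
  have hcont : Continuous (fderiv ℝ ρ) := hρ.continuous_fderiv one_ne_zero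
  have hKclosed : IsClosed K := isClosed_eq hρ.continuous continuous_const
  have hKcl : K ⊆ closure Ω := zero_subset_closure hreg
  have hclc : IsCompact (closure Ω) := hbdd.isCompact_closure
  have hKcomp : IsCompact K := hclc.of_isClosed_subset hKclosed hKcl
  have hclle : ∀ x ∈ closure Ω, ρ x ≤ 0 := by
    intro x hx
    exact closure_minimal (fun y hy => le_of_lt hy) (isClosed_le hρ.continuous continuous_const) hx
  have hloc := fun p : K => local_lower ρ hρ p p.2 (hreg p p.2) δ hδ0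
  choose U hUo hpU hU using hloc
  obtain ⟨t, ht⟩ := hKcomp.elim_finite_subcover U hUo
    (fun x hx => mem_iUnion.2 ⟨⟨x, hx⟩, hpU ⟨x, hx⟩⟩)
  set N := t.card with hN
  set eqv := t.equivFin.symm with heqv
  set W : Fin N → Set V := fun i => U (eqv i) with hW
  have hWo : ∀ i, IsOpen (W i) := fun i => hUo _
  have hKW : K ⊆ ⋃ i, W i := by
    intro x hx
    obtain ⟨p, hp, hxp⟩ := mem_iUnion₂.1 (ht hx)
    refine mem_iUnion.2 ⟨t.equivFin ⟨p, hp⟩, ?_⟩
    simp only [hW, heqv, Equiv.symm_apply_apply]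
    exact hxp
  obtain ⟨K', hK'c, hKK', hK'W⟩ := exists_compact_between hKcomp (isOpen_iUnion hWo) hKW
  obtain ⟨f, hfs, hf1, hf01, hfc⟩ := exists_continuous_sum_one_of_isOpen_isCompact hWo hK'c hK'W
  -- small ε: support in K'
  obtain ⟨ε₀, hε₀, hε₀K⟩ : ∃ ε₀ > 0, ∀ x, x ∉ K' → ρ x ≤ 0 → ρ x ≤ -ε₀ := by
    have hc : IsCompact (closure Ω \ interior K') := hclc.diff isOpen_interior
    rcases (closure Ω \ interior K').eq_empty_or_nonempty with he | hne
    · refine ⟨1, one_pos, fun x hx hx0 => ?_⟩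
      exfalso
      have hxcl : x ∈ closure Ω := by
        rcases lt_or_eq_of_le hx0 with h' | h'
        · exact subset_closure h'
        · exact hKcl h'
      have : x ∈ closure Ω \ interior K' := ⟨hxcl, fun hi => hx (interior_subset hi)⟩
      rw [he] at this
      exact this
    · obtain ⟨z, hz, hzmax⟩ := hc.exists_isMaxOn hne hρ.continuous.continuousOn
      have hz0 : ρ z < 0 := by
        rcases lt_or_eq_of_le (hclle z hz.1) with h' | h'
        · exact h'
        · exact absurd (hKK' h') hz.2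
      refine ⟨-ρ z, by linarith, fun x hx hx0 => ?_⟩
      have hxcl : x ∈ closure Ω := by
        rcases lt_or_eq_of_le hx0 with h' | h'
        · exact subset_closure h'
        · exact hKcl h'
      have : x ∈ closure Ω \ interior K' := ⟨hxcl, fun hi => hx (interior_subset hi)⟩
      have := hzmax this
      simp only [mem_ofPred_eq] at this
      linarith
  set φ : Fin N → V → ℝ := fun i x => h x * f i x with hφ
  have hφc : ∀ i, Continuous (φ i) := fun i => hh.mul (f i).continuous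
  have hφ0 : ∀ i x, 0 ≤ φ i x := fun i x => mul_nonneg (hh0 x) (hf01 i x).1
  have hφcs : ∀ i, HasCompactSupport (φ i) := fun i => (hfc i).mul_left
  have hφts : ∀ i, tsupport (φ i) ⊆ W i := fun i =>
    (tsupport_mul_subset_right (f := h) (g := f i)).trans (hfs i)
  obtain ⟨η', hη'0, hη'⟩ : ∃ η' : ℝ, 0 < η' ∧ (N : ℝ) * η' ≤ η := by
    have hN0 : (0 : ℝ) ≤ (N : ℝ) := Nat.cast_nonneg N
    generalize (N : ℝ) = Nr at hN0
    refine ⟨η / (Nr + 1), by positivity, ?_⟩
    have : Nr * (η / (Nr + 1)) = η * (Nr / (Nr + 1)) := by field_simp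
    rw [this]
    have h5 : Nr / (Nr + 1) ≤ 1 := by rw [div_le_one (by positivity)]; linarith only []
    linarith only [mul_nonneg (le_of_lt (sub_pos.2 hη)) (sub_nonneg.2 h5)]
  have hev : ∀ᶠ ε in 𝓝[>] (0 : ℝ), ∀ i : Fin N,
      (∫⁻ x in {x | ρ x = 0},
          ENNReal.ofReal (φ i x / ‖fderiv ℝ ρ x‖) ∂(μHE[finrank ℝ V - 1] : Measure V)) ≤
        ENNReal.ofReal ((1 + δ) ^ finrank ℝ V) *
          (∫⁻ x, ENNReal.ofReal (ε⁻¹ * chi' (-ρ x / ε) * φ i x)) + ENNReal.ofReal η' := by
    rw [eventually_all]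
    intro i
    exact hU (eqv i) (φ i) (hφc i) (hφ0 i) (hφcs i) (hφts i) _ hη'0
  have hev2 : ∀ᶠ ε in 𝓝[>] (0 : ℝ), ε < ε₀ ∧ 0 < ε := by
    have h1 : ∀ᶠ ε in 𝓝[>] (0 : ℝ), ε < ε₀ :=
      (eventually_lt_nhds hε₀).filter_mono nhdsWithin_le_nhds
    exact h1.and self_mem_nhdsWithin
  filter_upwards [hev, hev2] with ε hε hε2
  obtain ⟨hεε₀, hε0⟩ := hε2
  have hsum : ∀ x, ENNReal.ofReal (ε⁻¹ * chi' (-ρ x / ε) * h x) =
      ∑ i, ENNReal.ofReal (ε⁻¹ * chi' (-ρ x / ε) * φ i x) := by
    intro x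
    have hchi : 0 ≤ ε⁻¹ * chi' (-ρ x / ε) :=
      mul_nonneg (inv_nonneg.2 hε0.le) (chi'_nonneg _)
    rw [← ENNReal.ofReal_sum_of_nonneg (fun i _ => mul_nonneg hchi (hφ0 i x)), ← Finset.mul_sum]
    by_cases hz : chi' (-ρ x / ε) = 0
    · simp [hz]
    · have h1 : 0 ≤ -ρ x / ε := by
        by_contra h; exact hz (chi'_eq_zero_of_lt (not_le.1 h))
      have h2 : -ρ x / ε ≤ 1 := by
        by_contra h; exact hz (chi'_eq_zero_of_gt (not_le.1 h))
      have h3 : ρ x ≤ 0 := by
        have := mul_nonneg h1 hε0.le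
        rw [div_mul_cancel₀ _ hε0.ne'] at this
        linarith only [this]
      have h4 : -ε ≤ ρ x := by
        rw [div_le_one hε0] at h2; linarith
      have hxK : x ∈ K' := by
        by_contra hx
        have := hε₀K x hx h3
        linarith
      have h5 := hf1 hxK
      simp only [Finset.sum_apply, Pi.one_apply] at h5
      have h6 : ∑ i, φ i x = h x := by
        simp only [hφ]
        rw [← Finset.mul_sum]
        have : ∑ i, (f i) x = 1 := by simpa using h5
        rw [this, mul_one]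
      rw [h6]
  have hmeas : ∀ i, Measurable fun x => ENNReal.ofReal (ε⁻¹ * chi' (-ρ x / ε) * φ i x) := by
    intro i
    apply ENNReal.measurable_ofReal.comp
    apply Continuous.measurable
    exact (continuous_const.mul (continuous_chi'.comp (hρ.continuous.neg.div_const ε))).mul (hφc i)
  calc ∫⁻ x in K, ENNReal.ofReal (h x / ‖fderiv ℝ ρ x‖) ∂(μHE[finrank ℝ V - 1] : Measure V)
      = ∑ i, ∫⁻ x in K, ENNReal.ofReal (φ i x / ‖fderiv ℝ ρ x‖)
          ∂(μHE[finrank ℝ V - 1] : Measure V) := by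
        rw [← lintegral_finsetSum]
        · apply setLIntegral_congr_fun hKclosed.measurableSet
          intro x hx
          have hxK : x ∈ K' := interior_subset (hKK' hx)
          have h5 := hf1 hxK
          simp only [Finset.sum_apply, Pi.one_apply] at h5
          have h7 : ∑ i, (f i) x = 1 := by simpa using h5
          simp only
          rw [← ENNReal.ofReal_sum_of_nonneg
            (fun i _ => div_nonneg (hφ0 i x) (norm_nonneg _)), ← Finset.sum_div]
          simp only [hφ]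
          rw [← Finset.mul_sum, h7, mul_one]
        · intro i _
          exact ENNReal.measurable_ofReal.comp ((hφc i).measurable.div hcont.norm.measurable)
    _ ≤ ∑ i, (ENNReal.ofReal ((1 + δ) ^ finrank ℝ V) *
          (∫⁻ x, ENNReal.ofReal (ε⁻¹ * chi' (-ρ x / ε) * φ i x)) + ENNReal.ofReal η') :=
        Finset.sum_le_sum fun i _ => hε i
    _ = ENNReal.ofReal ((1 + δ) ^ finrank ℝ V) *
          (∑ i, ∫⁻ x, ENNReal.ofReal (ε⁻¹ * chi' (-ρ x / ε) * φ i x)) + N * ENNReal.ofReal η' := by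
        rw [Finset.sum_add_distrib, Finset.mul_sum]
        simp
    _ = ENNReal.ofReal ((1 + δ) ^ finrank ℝ V) *
          (∫⁻ x, ENNReal.ofReal (ε⁻¹ * chi' (-ρ x / ε) * h x)) + N * ENNReal.ofReal η' := by
        rw [← lintegral_finsetSum _ fun i _ => hmeas i, lintegral_congr hsum]
    _ ≤ _ := by
        gcongr
        have hNe : (N : ℝ≥0∞) = ENNReal.ofReal (N : ℝ) := by simp
        rw [hNe, ← ENNReal.ofReal_mul (Nat.cast_nonneg N)]
        exact ENNReal.ofReal_le_ofReal hη'

end Vale.Agent.P219.Coarea
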