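import Vale.Agent.P219.H861.Area1
import Vale.Agent.P219.H817.T7

/-! # The area of a smooth domain is at most its perimeter -/

open MeasureTheory Set Filter Topology Matrix Module
open scoped ENNReal ContDiff

noncomputable section

namespace Vale.Agent.P219.Co

variable {n : ℕ}

/-- The integral of the divergence of a test field over the domain bounds its flux. -/
theorem area_flux (D : SmoothDomain n) {w : Fin n → E n → ℝ} (hw : ∀ i, ContDiff ℝ ∞ (w i))
    (hwc : ∀ i, HasCompactSupport (w i)) {h : E n → ℝ}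
    (hh : ∀ x, h x = ∑ i, pd i D.ρ x * w i x) (h0 : ∀ x, 0 ≤ h x) {P : ℝ}
    (hP0 : 0 ≤ P) (hP : ∫ x in D.carrier, ∑ i, pd i (w i) x ∂leb n ≤ P) :
    ∫⁻ x in {x | D.ρ x = 0}, ENNReal.ofReal (h x / √(∑ i, pd i D.ρ x ^ 2))
      ∂(μHE[n - 1] : Measure (E n)) ≤ ENNReal.ofReal P := by
  have := leb_compacts n
  set D' := oldDomain D with hD'
  have hρ1 : ContDiff ℝ 1 D.ρ := ContDiff.of_le D.smooth (by simp)
  have hρd : Differentiable ℝ D.ρ := smooth_differentiable_co D.smooth
  have hps : ∀ i, ContDiff ℝ ∞ (pd i D.ρ) := fun i => pd_contDiff D.smooth i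
  have hhc : Continuous h := by
    have : h = fun x => ∑ i, pd i D.ρ x * w i x := funext hh
    rw [this]
    exact continuous_finsetSum _ fun i _ => (hps i).continuous.mul (hw i).continuous
  have hcar : D'.carrier = D.carrier := rfl
  have hmeas : MeasurableSet D.carrier :=
    (isOpen_lt D'.smooth.continuous continuous_const).measurableSet
  -- integration by parts
  have hA : ∀ ε : ℝ, 0 < ε → ∫ x, Feps D' ε x * ∑ i, pd i (w i) x ∂leb n =
      ∫ x, ε⁻¹ * Coarea.chi' (-D.ρ x / ε) * h x ∂leb n := by
    intro ε hε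
    have hf := Feps_smooth D' ε
    have hcs := Feps_compact D' hε
    have hfd : Differentiable ℝ (Feps D' ε) := hf.differentiable (by simp)
    have hpf : ∀ i x, pd i (Feps D' ε) x = -(ε⁻¹ * Coarea.chi' (-D.ρ x / ε)) * pd i D.ρ x := by
      intro i x
      rw [pd_eq (hfd x), Feps_fderiv, pd_eq (hρd x)]
      rfl
    have hparts : ∀ i, ∫ x, Feps D' ε x * pd i (w i) x ∂leb n =
        -∫ x, pd i (Feps D' ε) x * w i x ∂leb n := by
      intro i
      have hwd : Differentiable ℝ (w i) := (hw i).differentiable (by simp)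
      have h2 : ∀ x, pd i (w i) x = fderiv ℝ (w i) x (basisVec i) := fun x => pd_eq (hwd x) i
      have h3 : ∀ x, pd i (Feps D' ε) x = fderiv ℝ (Feps D' ε) x (basisVec i) :=
        fun x => pd_eq (hfd x) i
      have hc1 : Continuous fun x => pd i (w i) x := (pd_contDiff (hw i) i).continuous
      have hc2 : Continuous fun x => pd i (Feps D' ε) x := (pd_contDiff hf i).continuous
      simp only [h2, h3]
      unfold leb
      refine integral_mul_fderiv_eq_neg_fderiv_mul_of_integrable ?_ ?_ ?_ (fun x _ => hfd x)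
        fun x _ => hwd x
      · have : (fun x => fderiv ℝ (Feps D' ε) x (basisVec i) * w i x) =
            fun x => pd i (Feps D' ε) x * w i x := by
          funext x
          rw [h3]
        rw [this]
        exact (hc2.mul (hw i).continuous).integrable_of_hasCompactSupport
          ((pd_compact hcs i).mul_right)
      · have : (fun x => Feps D' ε x * fderiv ℝ (w i) x (basisVec i)) =
            fun x => Feps D' ε x * pd i (w i) x := by
          funext x
          rw [h2]
        rw [this]
        exact (hf.continuous.mul hc1).integrable_of_hasCompactSupport hcs.mul_right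
      · exact (hf.continuous.mul (hw i).continuous).integrable_of_hasCompactSupport hcs.mul_right
    have h2 : (fun x => Feps D' ε x * ∑ i, pd i (w i) x) =
        fun x => ∑ i, Feps D' ε x * pd i (w i) x := funext fun x => Finset.mul_sum _ _ _
    rw [h2, integral_finsetSum]
    · simp only [hparts]
      rw [Finset.sum_neg_distrib, ← integral_finsetSum]
      · rw [← integral_neg]
        refine integral_congr_ae (Eventually.of_forall fun x => ?_)
        simp only [hpf]
        rw [hh x, Finset.mul_sum, ← Finset.sum_neg_distrib]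
        exact Finset.sum_congr rfl fun i _ => by ring
      · intro i _
        exact ((pd_contDiff hf i).continuous.mul (hw i).continuous).integrable_of_hasCompactSupport
          ((pd_compact hcs i).mul_right)
    · intro i _
      exact (hf.continuous.mul (pd_contDiff (hw i) i).continuous).integrable_of_hasCompactSupport
        hcs.mul_right
  -- the limit
  set G : E n → ℝ := fun x => ∑ i, pd i (w i) x with hG
  have hGc : Continuous G := continuous_finsetSum _ fun i _ => (pd_contDiff (hw i) i).continuous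
  have hGs : HasCompactSupport G := by
    refine HasCompactSupport.intro (isCompact_iUnion fun i => (pd_compact (hwc i) i).isCompact)
      fun x hx => ?_
    rw [mem_iUnion, not_exists] at hx
    exact Finset.sum_eq_zero fun i _ => image_eq_zero_of_notMem_tsupport (hx i)
  have hGi : Integrable G (leb n) := hGc.integrable_of_hasCompactSupport hGs
  have hlim : Tendsto (fun ε : ℝ => ∫ x, Feps D' ε x * G x ∂leb n) (𝓝[>] 0)
      (𝓝 (∫ x in D.carrier, G x ∂leb n)) := by
    rw [← integral_indicator hmeas]
    refine tendsto_integral_filter_of_dominated_convergence (fun x => |G x|) ?_ ?_ hGi.abs ?_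
    · filter_upwards with ε
      exact ((Feps_smooth D' ε).continuous.mul hGc).aestronglyMeasurable
    · filter_upwards with ε
      filter_upwards with x
      rw [Real.norm_eq_abs, abs_mul, abs_of_nonneg (Feps_nonneg D' ε x)]
      exact mul_le_of_le_one_left (abs_nonneg _) (Feps_le_one D' ε x)
    · filter_upwards with x
      have h1 := (Feps_tendsto D' x).mul_const (G x)
      have h2 : D'.carrier.indicator (fun _ => (1 : ℝ)) x * G x = D.carrier.indicator G x := by
        by_cases hx : x ∈ D.carrier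
        · rw [indicator_of_mem hx, hcar, indicator_of_mem hx, one_mul]
        · rw [indicator_of_notMem hx, hcar, indicator_of_notMem hx, zero_mul]
      rwa [h2] at h1
  -- the estimate
  set A : ℝ≥0∞ := ∫⁻ x in {x | D.ρ x = 0}, ENNReal.ofReal (h x / √(∑ i, pd i D.ρ x ^ 2))
      ∂(μHE[n - 1] : Measure (E n)) with hAdef
  have hest : ∀ η : ℝ, 0 < η → A ≤ ENNReal.ofReal ((1 + η) ^ n * (P + η) + η) := by
    intro η hη
    have h1 := Coarea.coarea_lower D.ρ hρ1 D'.bdd D'.regular h hhc h0 η hη η hη
    have h2 : ∀ᶠ ε in 𝓝[>] (0 : ℝ), ∫ x, Feps D' ε x * G x ∂leb n < P + η :=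
      hlim.eventually (gt_mem_nhds (by linarith))
    obtain ⟨ε, ⟨h1, h2⟩, h3⟩ := ((h1.and h2).and self_mem_nhdsWithin).exists
    have hε : 0 < ε := h3
    have h4 : ∫⁻ x, ENNReal.ofReal (ε⁻¹ * Coarea.chi' (-D.ρ x / ε) * h x) ≤
        ENNReal.ofReal (P + η) := by
      have hnn : ∀ x, 0 ≤ ε⁻¹ * Coarea.chi' (-D.ρ x / ε) * h x := fun x =>
        mul_nonneg (mul_nonneg (inv_nonneg.2 hε.le) (Coarea.chi'_nonneg _)) (h0 x)
      have hi : Integrable (fun x => ε⁻¹ * Coarea.chi' (-D.ρ x / ε) * h x) (leb n) := by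
        refine Continuous.integrable_of_hasCompactSupport ?_ ?_
        · exact (continuous_const.mul (Coarea.continuous_chi'.comp
            (hρd.continuous.neg.div_const ε))).mul hhc
        · refine HasCompactSupport.intro D'.bdd.isCompact_closure fun x hx => ?_
          by_cases hz : Coarea.chi' (-D.ρ x / ε) = 0
          · rw [hz]; ring
          · exfalso
            have h5 : 0 ≤ -D.ρ x / ε := by
              by_contra h; exact hz (Coarea.chi'_eq_zero_of_lt (not_le.1 h))
            have h6 : D.ρ x ≤ 0 := by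
              have := mul_nonneg h5 hε.le
              rw [div_mul_cancel₀ _ hε.ne'] at this
              linarith
            rcases h6.lt_or_eq with h7 | h7
            · exact hx (subset_closure h7)
            · exact hx (Coarea.zero_subset_closure D'.regular h7)
      have h5 := ofReal_integral_eq_lintegral_ofReal hi (Eventually.of_forall hnn)
      unfold leb at h5
      rw [← h5]
      apply ENNReal.ofReal_le_ofReal
      have h6 := hA ε hε
      unfold leb at h6
      rw [← h6]
      exact h2.le
    rw [finrank_euclideanSpace_fin] at h1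
    have h5 : A = ∫⁻ x in {x | D.ρ x = 0}, ENNReal.ofReal (h x / ‖fderiv ℝ D.ρ x‖)
      ∂(μHE[n - 1] : Measure (E n)) := by
      rw [hAdef]
      refine lintegral_congr fun x => ?_
      rw [norm_fderiv_co hρd]
    rw [h5]
    refine h1.trans ?_
    have hη1 : 0 ≤ (1 + η) ^ n := by positivity
    rw [ENNReal.ofReal_add (by positivity) hη.le, ENNReal.ofReal_mul hη1]
    gcongr
  have hl : Tendsto (fun η : ℝ => ENNReal.ofReal ((1 + η) ^ n * (P + η) + η)) (𝓝[>] 0)
      (𝓝 (ENNReal.ofReal P)) := by
    apply (ENNReal.continuous_ofReal.tendsto P).comp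
    have hc : Continuous fun η : ℝ => (1 + η) ^ n * (P + η) + η := by fun_prop
    have := hc.tendsto 0
    simp only [add_zero, one_pow, one_mul] at this
    exact this.mono_left nhdsWithin_le_nhds
  exact ge_of_tendsto hl (by filter_upwards [self_mem_nhdsWithin] with η hη using hest η hη)

theorem area_le_perimeter' (M : RiemMetric n) (D : SmoothDomain n) :
    riemArea M D ≤ perimeter M D.carrier := by
  by_cases hPt : perimeter M D.carrier = ⊤
  · rw [hPt]; exact le_top
  set P := (perimeter M D.carrier).toReal with hPdef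
  have hP0 : 0 ≤ P := ENNReal.toReal_nonneg
  have hPe : perimeter M D.carrier = ENNReal.ofReal P := (ENNReal.ofReal_toReal hPt).symm
  rw [hPe]
  have hvp := volDensity_pos M
  have hρs : ContDiff ℝ ∞ D.ρ := D.smooth
  set p : E n → Fin n → ℝ := fun x i => pd i D.ρ x with hp
  set q : Fin n → E n → ℝ := fun i x => ((M.g x)⁻¹ *ᵥ p x) i with hq
  set N2 : E n → ℝ := fun x => p x ⬝ᵥ (M.g x)⁻¹ *ᵥ p x with hN2
  have hN20 : ∀ x, 0 ≤ N2 x := fun x => ginv_nonneg M x _
  have hgN : ∀ x, gradNorm M D.ρ x = √(N2 x) := fun x => rfl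
  have hps : ∀ i, ContDiff ℝ ∞ fun x => p x i := fun i => pd_contDiff hρs i
  have hqs : ∀ i, ContDiff ℝ ∞ (q i) := by
    intro i
    have h : q i = fun x => ∑ j, (M.g x)⁻¹ i j * p x j := rfl
    rw [h]
    exact ContDiff.sum fun j _ => (ginv_contDiff M i j).mul (hps j)
  have hN2s : ContDiff ℝ ∞ N2 := by
    have h : N2 = fun x => ∑ i, p x i * q i x := rfl
    rw [h]
    exact ContDiff.sum fun i _ => (hps i).mul (hqs i)
  -- the cutoff
  obtain ⟨R₀, hR₀⟩ := (oldDomain D).bdd.subset_closedBall (0 : E n)
  set R := max R₀ 1 with hRdef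
  have hR0 : 0 < R := lt_of_lt_of_le one_pos (le_max_right _ _)
  set ζ : ContDiffBump (0 : E n) := ⟨R, R + 1, hR0, by linarith⟩ with hζ
  have hζ1 : ∀ x, D.ρ x = 0 → ζ x = 1 := by
    intro x hx
    apply ζ.one_of_mem_closedBall
    have h1 : x ∈ closure {x | D.ρ x < 0} :=
      Coarea.zero_subset_closure (oldDomain D).regular hx
    have h2 : closure {x | D.ρ x < 0} ⊆ Metric.closedBall 0 R :=
      closure_minimal (hR₀.trans (Metric.closedBall_subset_closedBall (le_max_left _ _)))
        Metric.isClosed_closedBall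
    exact h2 h1
  -- the regularised area
  have key : ∀ s : ℝ, 0 < s → ∫⁻ x in {x | D.ρ x = 0},
      ENNReal.ofReal (ζ x * (volDensity M x / √(N2 x + s ^ 2) * N2 x) /
        √(∑ i, pd i D.ρ x ^ 2)) ∂(μHE[n - 1] : Measure (E n)) ≤ ENNReal.ofReal P := by
    intro s hs
    have hDpos : ∀ x, 0 < N2 x + s ^ 2 := fun x => by have := hN20 x; positivity
    set Rr : E n → ℝ := fun x => √(N2 x + s ^ 2) with hRr
    have hRpos : ∀ x, 0 < Rr x := fun x => Real.sqrt_pos.2 (hDpos x)
    have hRs : ContDiff ℝ ∞ Rr := (hN2s.add contDiff_const).sqrt fun x => (hDpos x).ne'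
    have hRsq : ∀ x, Rr x ^ 2 = N2 x + s ^ 2 := fun x => Real.sq_sqrt (hDpos x).le
    set w : Fin n → E n → ℝ := fun i x => ζ x * (volDensity M x / Rr x * q i x) with hw
    have hws : ∀ i, ContDiff ℝ ∞ (w i) := fun i =>
      ζ.contDiff.mul (((volDensity_contDiff M).div hRs fun x => (hRpos x).ne').mul (hqs i))
    have hwc : ∀ i, HasCompactSupport (w i) := fun i => ζ.hasCompactSupport.mul_right
    have hwn : ∀ x, (fun i => w i x) ⬝ᵥ M.g x *ᵥ (fun i => w i x) ≤
        (1 * volDensity M x) ^ 2 := by
      intro x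
      have e1 : (fun i => w i x) = (ζ x * (volDensity M x / Rr x)) • ((M.g x)⁻¹ *ᵥ p x) := by
        funext i
        simp only [hw, hq, Pi.smul_apply, smul_eq_mul]
        ring
      rw [e1, mulVec_smul, smul_dotProduct, dotProduct_smul, smul_eq_mul, smul_eq_mul,
        ginv_eq, ← mul_assoc, ← sq, mul_pow, div_pow, one_mul]
      have h1 : p x ⬝ᵥ (M.g x)⁻¹ *ᵥ p x = N2 x := rfl
      rw [h1, hRsq]
      have h2 : (ζ x) ^ 2 ≤ 1 := by
        have := ζ.le_one (x := x)
        have := ζ.nonneg' x
        nlinarith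
      have h3 : volDensity M x ^ 2 / (N2 x + s ^ 2) * N2 x ≤ volDensity M x ^ 2 := by
        rw [div_mul_eq_mul_div, div_le_iff₀ (hDpos x)]
        exact mul_le_mul_of_nonneg_left (by nlinarith) (sq_nonneg _)
      have h4 : 0 ≤ volDensity M x ^ 2 / (N2 x + s ^ 2) * N2 x :=
        mul_nonneg (div_nonneg (sq_nonneg _) (hDpos x).le) (hN20 x)
      calc (ζ x) ^ 2 * (volDensity M x ^ 2 / (N2 x + s ^ 2)) * N2 x
          = (ζ x) ^ 2 * (volDensity M x ^ 2 / (N2 x + s ^ 2) * N2 x) := by ring
        _ ≤ 1 * (volDensity M x ^ 2 / (N2 x + s ^ 2) * N2 x) :=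
            mul_le_mul_of_nonneg_right h2 h4
        _ ≤ _ := by rw [one_mul]; exact h3
    have hfl := flux_le M hPt hws hwc one_pos hwn
    rw [one_mul] at hfl
    refine area_flux D hws hwc (h := fun x => ζ x * (volDensity M x / Rr x * N2 x)) (fun x => ?_)
      (fun x => ?_) hP0 hfl
    · have h1 : N2 x = ∑ i, p x i * q i x := rfl
      simp only [hw]
      rw [h1, Finset.mul_sum, Finset.mul_sum]
      exact Finset.sum_congr rfl fun i _ => by ring
    · exact mul_nonneg (ζ.nonneg' x) (mul_nonneg (div_nonneg (hvp x).le (hRpos x).le) (hN20 x))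
  -- Fatou
  have hK : MeasurableSet {x : E n | D.ρ x = 0} :=
    (isClosed_eq hρs.continuous continuous_const).measurableSet
  set F : ℕ → E n → ℝ≥0∞ := fun k x =>
    ENNReal.ofReal (ζ x * (volDensity M x / √(N2 x + (1 / ((k : ℝ) + 1)) ^ 2) * N2 x) /
        √(∑ i, pd i D.ρ x ^ 2)) with hF
  have hFm : ∀ k, Measurable (F k) := by
    intro k
    apply ENNReal.measurable_ofReal.comp
    have hk : (0 : ℝ) < 1 / ((k : ℝ) + 1) := by positivity
    have h1 : Continuous fun x => ζ x * (volDensity M x / √(N2 x + (1 / ((k : ℝ) + 1)) ^ 2) *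
        N2 x) := by
      refine ζ.continuous.mul (((volDensity_cont M).div ?_ fun x => ?_).mul hN2s.continuous)
      · exact (hN2s.continuous.add continuous_const).sqrt
      · have := hN20 x
        positivity
    have h2 : Continuous fun x => √(∑ i, pd i D.ρ x ^ 2) :=
      (continuous_finsetSum _ fun i _ => (hps i).continuous.pow 2).sqrt
    exact h1.measurable.div h2.measurable
  have hlim : ∀ x ∈ {x : E n | D.ρ x = 0}, Tendsto (fun k => F k x) atTop
      (𝓝 (ENNReal.ofReal (volDensity M x * gradNorm M D.ρ x / √(∑ i, pd i D.ρ x ^ 2)))) := by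
    intro x hx
    apply (ENNReal.continuous_ofReal.tendsto _).comp
    apply Tendsto.div_const
    simp only [hζ1 x hx, one_mul, hgN]
    have h1 : Tendsto (fun k : ℕ => 1 / ((k : ℝ) + 1)) atTop (𝓝 0) :=
      tendsto_one_div_add_atTop_nhds_zero_nat
    have h2 : Tendsto (fun k : ℕ => N2 x / √(N2 x + (1 / ((k : ℝ) + 1)) ^ 2)) atTop
        (𝓝 (√(N2 x))) := by
      have h3 : Tendsto (fun k : ℕ => √(N2 x) - 1 / ((k : ℝ) + 1)) atTop (𝓝 (√(N2 x))) := by
        simpa using tendsto_const_nhds.sub h1
      refine tendsto_of_tendsto_of_tendsto_of_le_of_le h3 tendsto_const_nhds (fun k => ?_)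
        fun k => ?_
      · have hk : (0 : ℝ) < 1 / ((k : ℝ) + 1) := by positivity
        set s : ℝ := 1 / ((k : ℝ) + 1) with hs
        have hD : 0 < N2 x + s ^ 2 := by have := hN20 x; positivity
        have hs1 : √(N2 x + s ^ 2) ≤ √(N2 x) + s := by
          rw [Real.sqrt_le_left (by positivity)]
          have := Real.sq_sqrt (hN20 x)
          have := Real.sqrt_nonneg (N2 x)
          nlinarith
        simp only
        rw [le_div_iff₀ (Real.sqrt_pos.2 hD)]
        rcases le_total (√(N2 x)) s with h | h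
        · have h5 : (√(N2 x) - s) * √(N2 x + s ^ 2) ≤ 0 :=
            mul_nonpos_of_nonpos_of_nonneg (by linarith) (Real.sqrt_nonneg _)
          exact h5.trans (hN20 x)
        · calc (√(N2 x) - s) * √(N2 x + s ^ 2) ≤ (√(N2 x) - s) * (√(N2 x) + s) :=
                mul_le_mul_of_nonneg_left hs1 (by linarith)
            _ = √(N2 x) ^ 2 - s ^ 2 := by ring
            _ ≤ N2 x := by rw [Real.sq_sqrt (hN20 x)]; nlinarith
      · have hk : (0 : ℝ) < 1 / ((k : ℝ) + 1) := by positivity
        have hD : 0 < N2 x + (1 / ((k : ℝ) + 1)) ^ 2 := by have := hN20 x; positivity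
        simp only
        rw [div_le_iff₀ (Real.sqrt_pos.2 hD)]
        calc N2 x = √(N2 x) * √(N2 x) := (Real.mul_self_sqrt (hN20 x)).symm
          _ ≤ √(N2 x) * √(N2 x + (1 / ((k : ℝ) + 1)) ^ 2) := by
              apply mul_le_mul_of_nonneg_left _ (Real.sqrt_nonneg _)
              apply Real.sqrt_le_sqrt
              have : 0 ≤ (1 / ((k : ℝ) + 1)) ^ 2 := sq_nonneg _
              linarith
    have h4 := h2.const_mul (volDensity M x)
    refine h4.congr fun k => ?_
    ring
  unfold riemArea
  calc ∫⁻ x in {x | D.ρ x = 0}, ENNReal.ofReal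
          (volDensity M x * gradNorm M D.ρ x / √(∑ i, pd i D.ρ x ^ 2))
          ∂(μHE[n - 1] : Measure (E n))
      = ∫⁻ x in {x | D.ρ x = 0}, liminf (fun k => F k x) atTop
          ∂(μHE[n - 1] : Measure (E n)) :=
        setLIntegral_congr_fun hK fun x hx => (hlim x hx).liminf_eq.symm
    _ ≤ liminf (fun k => ∫⁻ x in {x | D.ρ x = 0}, F k x ∂(μHE[n - 1] : Measure (E n))) atTop :=
        lintegral_liminf_le hFm
    _ ≤ liminf (fun _ : ℕ => ENNReal.ofReal P) atTop :=
        liminf_le_liminf (Eventually.of_forall fun k => key (1 / ((k : ℝ) + 1)) (by positivity))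
    _ = ENNReal.ofReal P := liminf_const _

theorem area_le_perimeter {n : ℕ} (_hn : 2 ≤ n) (M : RiemMetric n) (D : SmoothDomain n) :
    riemArea M D ≤ perimeter M D.carrier := area_le_perimeter' M D

end Vale.Agent.P219.Co
end
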